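import Vale.Agent.P281.H368.GM.B
import Mathlib.Analysis.Analytic.Uniqueness

/-! P281, theorem GM: the form `β` of an immersive projective map is positive definite on a dense set. -/

open scoped Manifold ContDiff Topology ComplexOrder
open Set Filter Vale.Agent.P281.J Vale.Agent.P272.K Vale.Agent.P299

noncomputable section

namespace Vale.Agent.P281.H787

open Vale.Agent.P299.H223 Vale.Agent.P281.H949.SA Vale.Agent.P281.H167.GM Vale.Agent.P281.H368.GM

/-- an injective matrix has an invertible square submatrix -/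
theorem exists_minor {n k : ℕ} (J : Matrix (Fin k) (Fin n) ℂ)
    (hJ : ∀ v : Fin n → ℂ, J.mulVec v = 0 → v = 0) : ∃ c : Fin n → Fin k, (J.submatrix c id).det ≠ 0 := by
  have hinj : Function.Injective J.mulVecLin := by
    rw [injective_iff_map_eq_zero]
    exact hJ
  have hrank : J.rank = n := by
    rw [Matrix.rank, LinearMap.finrank_range_of_inj hinj, Module.finrank_fin_fun]
  have hrow : Module.finrank ℂ (Submodule.span ℂ (range J.row)) = n := by
    rw [← Matrix.rank_eq_finrank_span_row, hrank]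
  obtain ⟨f, hf, -, hli⟩ := Submodule.exists_fun_fin_finrank_span_eq ℂ (range J.row)
  choose c hc using hf
  refine ⟨fun i => c (Fin.cast hrow.symm i), ?_⟩
  have h1 : LinearIndependent ℂ (J.submatrix (fun i => c (Fin.cast hrow.symm i)) id).row := by
    have h2 : (J.submatrix (fun i => c (Fin.cast hrow.symm i)) id).row =
        f ∘ Fin.cast hrow.symm := by
      funext i
      exact hc _
    rw [h2]
    exact hli.comp _ (Fin.cast_injective _)
  exact ((Matrix.isUnit_iff_isUnit_det _).1 (Matrix.linearIndependent_rows_iff_isUnit.1 h1)).ne_zero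

variable {n : ℕ} {X : Type} [TopologicalSpace X] [ChartedSpace (Cm n) X]
  [IsManifold 𝓘(ℂ, Cm n) ω X]

lemma dif_eq {e : Chart n X} {x : X} (h : At e x) {g : X → ℂ} (hg : HolAt (Cm n) g x) (v : Cm n) :
    dif (Cm n) g x v = fderiv ℂ (fun z => g (e.symm z)) (e x) (De e x v) := by
  have h1 : g =ᶠ[𝓝 x] (fun z => g (e.symm z)) ∘ e := by
    filter_upwards [e.open_source.mem_nhds h.2] with y hy
    simp [e.left_inv hy]
  have h2 : MDifferentiableAt 𝓘(ℂ, Cm n) 𝓘(ℂ, ℂ) (fun z => g (e.symm z)) (e x) :=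
    ((holAt_chart h hg).differentiableAt (by simp)).mdifferentiableAt
  have h3 : MDifferentiableAt 𝓘(ℂ, Cm n) 𝓘(ℂ, Cm n) e x :=
    (mdifferentiable_of_mem_atlas (I := 𝓘(ℂ, Cm n)) (H := Cm n) h.1).mdifferentiableAt h.2
  have h4 : mfderiv 𝓘(ℂ, Cm n) 𝓘(ℂ, ℂ) g x =
      (mfderiv 𝓘(ℂ, Cm n) 𝓘(ℂ, ℂ) (fun z => g (e.symm z)) (e x)).comp
        (mfderiv 𝓘(ℂ, Cm n) 𝓘(ℂ, Cm n) e x) := by
    rw [← mfderiv_comp x h2 h3]
    exact h1.mfderiv_eq
  have h5 := congrArg (fun T : Cm n →L[ℂ] ℂ => T v) h4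
  rw [mfderiv_eq_fderiv] at h5
  exact h5

/-- the matrix of the differentials of the affine coordinates -/
def JJ {k : ℕ} (t : Fin k → X → ℂ) (b₀ : Fin k) (e : Chart n X) (z : Cm n) :
    Matrix (Fin k) (Fin n) ℂ :=
  Matrix.of fun b j => fderiv ℂ (fun y => quo t b₀ e y b) z (Pi.single j 1)

omit [ChartedSpace (Cm n) X] [IsManifold 𝓘(ℂ, Cm n) ω X] in
lemma fderiv_eq_JJ {k : ℕ} (t : Fin k → X → ℂ) (b₀ : Fin k) (e : Chart n X) (z : Cm n) (v : Cm n)
    (b : Fin k) : fderiv ℂ (fun y => quo t b₀ e y b) z v = (JJ t b₀ e z).mulVec v b := by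
  have hv : v = ∑ j, v j • (Pi.single j (1 : ℂ) : Cm n) := by
    funext j
    simp [Finset.sum_apply, Pi.single_apply]
  conv_lhs => rw [hv]
  rw [map_sum]
  simp only [map_smul, smul_eq_mul, Matrix.mulVec, dotProduct, JJ, Matrix.of_apply]
  exact Finset.sum_congr rfl fun j _ => mul_comm _ _

omit [ChartedSpace (Cm n) X] [IsManifold 𝓘(ℂ, Cm n) ω X] in
lemma ker_iff_JJ {k : ℕ} (t : Fin k → X → ℂ) (b₀ : Fin k) (e : Chart n X) (z : Cm n) :
    (∀ v : Cm n, (∀ b, fderiv ℂ (fun y => quo t b₀ e y b) z v = 0) → v = 0) ↔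
      ∃ c : Fin n → Fin k, ((JJ t b₀ e z).submatrix c id).det ≠ 0 := by
  constructor
  · intro h
    refine exists_minor _ fun v hv => h v fun b => ?_
    rw [fderiv_eq_JJ, hv, Pi.zero_apply]
  · rintro ⟨c, hc⟩ v hv
    refine Matrix.eq_zero_of_mulVec_eq_zero hc ?_
    funext i
    have h1 := hv (c i)
    rw [fderiv_eq_JJ] at h1
    exact h1

lemma analytic_minor {k : ℕ} {t : Fin k → X → ℂ} (ht : IsProjMap n t) {e : Chart n X} {x : X}
    (h : At e x) {b₀ : Fin k} (h0 : t b₀ x ≠ 0) (c : Fin n → Fin k) :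
    AnalyticAt ℂ (fun z => ((JJ t b₀ e z).submatrix c id).det) (e x) := by
  have h1 := quo_holo ht h h0
  have h2 : ∀ b j, AnalyticAt ℂ (fun z => JJ t b₀ e z b j) (e x) := by
    intro b j
    have h3 : AnalyticAt ℂ (fun y => quo t b₀ e y b) (e x) := (comp_cd h1 b).analyticAt
    have h4 : AnalyticAt ℂ (fderiv ℂ (fun y => quo t b₀ e y b)) (e x) := h3.fderiv
    exact ((ContinuousLinearMap.apply ℂ ℂ (Pi.single j 1 : Cm n)).analyticAt _).comp h4
  simp only [Matrix.det_apply']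
  refine Finset.analyticAt_fun_sum _ fun σ _ => ?_
  refine analyticAt_const.mul ?_
  refine Finset.analyticAt_fun_prod _ fun i _ => ?_
  exact h2 _ _

section main

variable {k : ℕ} {t : Fin k → X → ℂ} {β : D.FormM n X}

lemma ker_dif_iff (ht : IsProjMap n t) {e : Chart n X} {x : X} (h : At e x) {b₀ : Fin k}
    (h0 : t b₀ x ≠ 0) :
    (∀ v : Cm n, (∀ b, dif (Cm n) (fun z => t b z / t b₀ z) x v = 0) → v = 0) ↔
      ∀ v : Cm n, (∀ b, fderiv ℂ (fun z => t b (e.symm z) / t b₀ (e.symm z)) (e x) v = 0) →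
        v = 0 := by
  have hhol : ∀ b, HolAt (Cm n) (fun z => t b z / t b₀ z) x := by
    intro b
    have h1 : ContMDiffAt 𝓘(ℂ, Cm n) 𝓘(ℂ, ℂ) ω (fun z => quo t b₀ e (e z) b) x := by
      have h2 : ContMDiffAt 𝓘(ℂ, Cm n) 𝓘(ℂ, ℂ) ω (fun z => quo t b₀ e z b) (e x) :=
        (comp_cd (quo_holo ht h h0) b).contMDiffAt
      exact ContMDiffAt.comp x h2 (contMDiffAt_of_mem_maximalAtlas
        (IsManifold.subset_maximalAtlas h.1) h.2)
    refine h1.congr_of_eventuallyEq ?_
    filter_upwards [e.open_source.mem_nhds h.2] with y hy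
    simp only [quo, e.left_inv hy]
  have hdet : (De e x).det ≠ 0 := dj_ne_zero h
  have hbij : Function.Bijective (De e x) := by
    have h1 : LinearMap.det ((De e x : Cm n →L[ℂ] Cm n) : Cm n →ₗ[ℂ] Cm n) ≠ 0 := hdet
    exact (LinearMap.equivOfDetNeZero _ h1).bijective
  constructor
  · intro H v hv
    obtain ⟨w, rfl⟩ := hbij.2 v
    rw [H w fun b => ?_, map_zero]
    rw [dif_eq h (hhol b)]
    exact hv b
  · intro H v hv
    apply hbij.1
    rw [map_zero]
    refine H _ fun b => ?_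
    rw [← dif_eq h (hhol b)]
    exact hv b

/-- **The form `β` is positive definite on a dense set.** -/
theorem dense_posDef [ConnectedSpace X] (ht : IsProjMap n t)
    (h0 : ∃ x b₀, t b₀ x ≠ 0 ∧
      ∀ v : Cm n, (∀ b, dif (Cm n) (fun z => t b z / t b₀ z) x v = 0) → v = 0)
    (hβ : ∀ e x, At e x → ∀ b₀, t b₀ x ≠ 0 → ((β e (e x)).PosDef ↔ ∀ v : Cm n,
      (∀ b, fderiv ℂ (fun z => t b (e.symm z) / t b₀ (e.symm z)) (e x) v = 0) → v = 0)) :
    Dense {x : X | ∃ e, At e x ∧ (β e (e x)).PosDef} := by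
  have good : ∀ {e : Chart n X} {x : X}, At e x → ∀ {b₀ : Fin k}, t b₀ x ≠ 0 →
      ((∃ e, At e x ∧ (β e (e x)).PosDef) ↔
        ∃ c : Fin n → Fin k, ((JJ t b₀ e (e x)).submatrix c id).det ≠ 0) := by
    intro e x h b₀ hb
    rw [← ker_iff_JJ]
    constructor
    · rintro ⟨e', h', hp⟩
      exact (ker_dif_iff ht h hb).1 ((ker_dif_iff ht h' hb).2 ((hβ e' x h' b₀ hb).1 hp))
    · intro H
      exact ⟨e, h, (hβ e x h b₀ hb).2 H⟩
  set Z : Set X := {x | ∀ᶠ z in 𝓝 x, ¬ ∃ e, At e z ∧ (β e (e z)).PosDef} with hZ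
  have ho : IsOpen Z := isOpen_iff_mem_nhds.2 fun x hx => eventually_eventually_nhds.2 hx
  have hc : IsClosed Z := by
    refine isClosed_of_closure_subset fun x hx => ?_
    set e : Chart n X := chartAt (Cm n) x with he
    have hex : At e x := ⟨chart_mem_atlas _ _, mem_chart_source _ _⟩
    set b₀ := idx ht x with hb₀
    obtain ⟨r, hr, hB⟩ := Metric.mem_nhds_iff.1 (Filter.inter_mem
      (e.open_target.mem_nhds hex.mem_target) (ne_near_idx ht hex))
    have hAt : ∀ z ∈ Metric.ball (e x) r, At e (e.symm z) := fun z hz =>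
      At.of_target hex.1 (hB hz).1
    have hne : ∀ z ∈ Metric.ball (e x) r, t b₀ (e.symm z) ≠ 0 := fun z hz => (hB hz).2
    have han : ∀ c : Fin n → Fin k, AnalyticOnNhd ℂ
        (fun z => ((JJ t b₀ e z).submatrix c id).det) (Metric.ball (e x) r) := by
      intro c z hz
      have h2 := analytic_minor ht (hAt z hz) (hne z hz) c
      rwa [e.right_inv (hB hz).1] at h2
    have hU : e.source ∩ e ⁻¹' Metric.ball (e x) r ∈ 𝓝 x :=
      inter_mem (e.open_source.mem_nhds hex.2)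
        ((e.continuousAt hex.2).preimage_mem_nhds (Metric.ball_mem_nhds _ hr))
    obtain ⟨y, ⟨hy1, hy2⟩, hyZ⟩ := mem_closure_iff_nhds.1 hx _ hU
    have hey : At e y := ⟨hex.1, hy1⟩
    have hzero : ∀ c : Fin n → Fin k,
        (fun z => ((JJ t b₀ e z).submatrix c id).det) =ᶠ[𝓝 (e y)] 0 := by
      intro c
      filter_upwards [(symm_tendsto hey).eventually hyZ, Metric.isOpen_ball.mem_nhds hy2]
        with z hz hzB
      by_contra hcon
      refine hz ((good (hAt z hzB) (hne z hzB)).2 ⟨c, ?_⟩)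
      rw [e.right_inv (hB hzB).1]
      exact hcon
    have hall : ∀ c : Fin n → Fin k, ∀ z ∈ Metric.ball (e x) r,
        ((JJ t b₀ e z).submatrix c id).det = 0 := fun c z hz =>
      (han c).eqOn_zero_of_preconnected_of_eventuallyEq_zero
        (convex_ball (e x) r).isPreconnected hy2 (hzero c) hz
    show ∀ᶠ z in 𝓝 x, ¬ ∃ e, At e z ∧ (β e (e z)).PosDef
    filter_upwards [hU] with z hz hgood
    have hz' : At e z := ⟨hex.1, hz.1⟩
    have h2 := hne (e z) hz.2
    rw [e.left_inv hz.1] at h2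
    obtain ⟨c, hc⟩ := (good hz' h2).1 hgood
    exact hc (hall c (e z) hz.2)
  intro x
  rw [mem_closure_iff_frequently]
  rcases isClopen_iff.1 (⟨hc, ho⟩ : IsClopen Z) with h | h
  · intro h1
    have h2 : x ∈ Z := h1
    rw [h] at h2
    exact h2
  · obtain ⟨x₀, b₀, hb, hker⟩ := h0
    have hx₀ : At (chartAt (Cm n) x₀ : Chart n X) x₀ := ⟨chart_mem_atlas _ _, mem_chart_source _ _⟩
    have h2 : x₀ ∈ Z := by rw [h]; exact mem_univ _
    exact absurd ⟨_, hx₀, (hβ _ x₀ hx₀ b₀ hb).2 ((ker_dif_iff ht hx₀ hb).1 hker)⟩ h2.self_of_nhds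

end main

end Vale.Agent.P281.H787
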