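import Vale.Agent.P281.H597.SA.R
import Vale.Agent.P281.H713.SB.Iface

/-! P281, theorem SB, block RB: adjunction along a smooth fibre. -/

open scoped Manifold ContDiff Topology
open Set Filter

namespace Vale.Agent.P281.H787

open Vale.Agent.P281 Vale.Agent.P281.MF Vale.Agent.P272.K Vale.Agent.P281.H597.SA

/-- **Block RB**. -/
theorem restrPartB : H713.SB.RestrPartB := by
  intro n p d hn Z Y F _ _ _ _ _ _ _ _ _ f hf i h
  have e : Cm n ≃L[ℂ] (Cm p × Cm d) := ContinuousLinearEquiv.ofFinrankEq (by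
    rw [Module.finrank_prod]
    simp [Cm, hn])
  have hf' : ∀ x, HolM (Cm n) (Cm p) f x := fun x => hf x
  have hi : ∀ t, HolM (Cm d) (Cm n) i t := fun t => h.hol t
  have himm : ∀ t, Function.Injective (dM (Cm d) (Cm n) i t) := h.immersive
  have hsub : ∀ t, Function.Surjective (dM (Cm n) (Cm p) f (i t)) := h.submersive
  choose Q hQ using fun t => exists_left_inv (himm t)
  have hAD : ∀ t v, dM (Cm n) (Cm p) f (i t) (dM (Cm d) (Cm n) i t v) = 0 := by
    intro t v
    have h1 : (dM (Cm n) (Cm p) f (i t)).comp (dM (Cm d) (Cm n) i t) =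
        dM (Cm d) (Cm p) (fun t => f (i t)) t := by
      have := mfderiv_comp t (ContMDiffAt.mdifferentiableAt (hf' (i t)) (by simp))
        (ContMDiffAt.mdifferentiableAt (hi t) (by simp))
      exact this.symm
    have h2 : (fun t => f (i t)) = fun _ => f (i t) := funext fun t' => h.const t' t
    have h3 : dM (Cm d) (Cm p) (fun t => f (i t)) t = 0 := by
      rw [h2]; unfold dM; rw [mfderiv_const]; rfl
    have h4 := congrArg (fun T : Cm d →L[ℂ] Cm p => T v) (h1.trans h3)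
    exact h4
  have hJ : ∀ t, JP e (dM (Cm n) (Cm p) f (i t)) (Q t) ≠ 0 := fun t =>
    JP_ne_zero e (hAD t) (hQ t) (hsub t)
  refine ⟨fun t => (JP e (dM (Cm n) (Cm p) f (i t)) (Q t))⁻¹, fun t => inv_ne_zero (hJ t),
    fun t₀ => ?_⟩
  obtain ⟨η, hη, hηe⟩ := adj_local e hf' hi t₀ (fun t => h.const t t₀) (hsub t₀) (himm t₀)
  refine ⟨η, hη, ?_, ?_⟩
  · intro h0
    have h1 := hηe.self_of_nhds (Q t₀) (hQ t₀)
    rw [h0, zero_mul, zero_mul] at h1
    exact jac_chart_ne_zero (mem_chart_source (Cm n) (i t₀)) h1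
  · filter_upwards [hηe] with t h1
    have h2 := h1 (Q t) (hQ t)
    show jac (Cm n) (chartAt (Cm n) (i t₀)) (i t) * (JP e (dM (Cm n) (Cm p) f (i t)) (Q t))⁻¹ =
      η t * jac (Cm d) (chartAt (Cm d) t₀) t
    rw [h2, mul_assoc, mul_inv_cancel₀ (hJ t), mul_one]

end Vale.Agent.P281.H787
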