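import Vale.Agent.P281.H368.GM.KDefs
import Vale.Agent.P281.H227.SB.Deg
import Vale.Agent.P281.H227.GMC
import Vale.Agent.P281.H167.GM.Tools
import Vale.Agent.P281.H564.GMb

/-! P281, GM-K: the limit `δ → 0` of `∫ A ^ (n-1) ∧ B_δ`. -/

open scoped Manifold ContDiff Topology ComplexOrder
open Set Filter Vale.Agent.P281.J Vale.Agent.P272.K Vale.Agent.P272.K.AMP Vale.Agent.P299

noncomputable section

namespace Vale.Agent.P281.H787

open Vale.Agent.P272.K.INT (intX IsClosedForm IsDensity lag)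
open Vale.Agent.P281.H167.GM Vale.Agent.P281.H713.SA Vale.Agent.P281.H368.GM
open Vale.Agent.P281.H227.GMC (lb nd mixD_interp)
open Vale.Agent.P299.H882 (J)

variable {n : ℕ} {X : Type} [TopologicalSpace X] [ChartedSpace (Cm n) X]
  [IsManifold 𝓘(ℂ, Cm n) ω X]
  {A B χ θ : D.FormM n X} {φ : Chart n X → Cm n → ℝ} {m : ℕ} {ρ : X → ℝ}

/-- (a) the mixed discriminant of two smooth forms is a density -/
lemma isDensity_mixD (hA : IsForm A) (hB : IsForm B)
    (sA : ∀ e x, At e x → ∀ i j, ContDiffAt ℝ ∞ (fun z => A e z i j) (e x))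
    (sB : ∀ e x, At e x → ∀ i j, ContDiffAt ℝ ∞ (fun z => B e z i j) (e x)) :
    IsDensity fun (e : Chart n X) z => mixD (A e z) (B e z) := by
  have h1 : (fun (e : Chart n X) z => mixD (A e z) (B e z)) = fun e z =>
      ∑ i ∈ Finset.range (n + 1), (lb n i).coeff 1 * (addF A (nd i) B e z).det.re := by
    funext e z
    exact mixD_interp _ _
  rw [h1]
  refine IsDensity.sum _ fun i _ => ((INT.isDensity_det (isForm_addF hA hB (nd i)) ?_).const_mul _)
  intro e x hx k l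
  exact (sA e x hx k l).add (contDiffAt_const.mul (sB e x hx k l))

/-- (b) the quotient of a density by a volume form -/
lemma exists_quot {D : Chart n X → Cm n → ℝ} (hD : IsDensity D) (hχ : IsHermitian χ) :
    ∃ h : X → ℝ, Continuous h ∧ ∀ e x, At e x → D e (e x) = h x * (χ e (e x)).det.re := by
  set h : X → ℝ := fun x => D (chartAt (Cm n) x) (chartAt (Cm n) x x) /
    (χ (chartAt (Cm n) x) (chartAt (Cm n) x x)).det.re with hh
  have key : ∀ e x, At e x → h x = D e (e x) / (χ e (e x)).det.re := by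
    intro e x hx
    have hx' := at_chartAt (n := n) x
    have h1 := hD.change _ e x hx' hx
    have h2 := (INT.isDensity_det hχ.isForm hχ.smooth).change _ e x hx' hx
    beta_reduce at h2
    have h3 : ‖(jacM (chartAt (Cm n) x) e x).det‖ ^ 2 ≠ 0 := by
      intro h0
      rw [h0, mul_zero] at h2
      exact (hχ.det_re_pos hx').ne' h2
    rw [hh]
    beta_reduce
    rw [h1, h2, mul_div_mul_right _ _ h3]
  refine ⟨h, ?_, ?_⟩
  · rw [continuous_iff_continuousAt]
    intro x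
    set e : Chart n X := chartAt (Cm n) x with he
    have hx : At e x := at_chartAt (n := n) x
    have h1 : ContinuousAt (fun y => D e (e y) / (χ e (e y)).det.re) x := by
      refine ContinuousAt.div ?_ ?_ (hχ.det_re_pos hx).ne'
      · exact (hD.cont e x hx).comp (e.continuousAt hx.2)
      · exact ((INT.isDensity_det hχ.isForm hχ.smooth).cont e x hx).comp (f := e) (e.continuousAt hx.2)
    refine h1.congr ?_
    filter_upwards [e.open_source.mem_nhds hx.2] with y hy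
    exact (key e y ⟨hx.1, hy⟩).symm
  · intro e x hx
    rw [key e x hx, div_mul_cancel₀ _ (hχ.det_re_pos hx).ne']

/-- (c) `B_δ` is a form -/
lemma isForm_Bd (hφ : IsCanonicalMetric φ) (hρ : SmoothFn (n := n) ρ) (h0 : ∀ x, 0 ≤ ρ x)
    (hθ : IsClosedForm θ) {δ : ℝ} (hδ : 0 < δ) : IsForm (Bd φ m ρ θ δ) := by
  intro e e' x hx hx'
  have h1 := (INT.isClosedForm_canonical (isCanonical_phiD (m := m) hφ hρ h0 hδ)).form e e' x hx hx'
  have h2 := hθ.form e e' x hx hx'
  have h3 := (INT.isClosedForm_canonical hφ).form e e' x hx hx'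
  simp only [Bd]
  rw [h1, h2, h3, hx.left_inv, hx'.left_inv]
  simp only [Matrix.mul_sub, Matrix.sub_mul, Matrix.mul_smul, Matrix.smul_mul]

/-- (c) `B_δ` is smooth -/
lemma smooth_Bd (hφ : IsCanonicalMetric φ) (hρ : SmoothFn (n := n) ρ) (h0 : ∀ x, 0 ≤ ρ x)
    (hθ : IsClosedForm θ) {δ : ℝ} (hδ : 0 < δ) (e : Chart n X) (x : X) (hx : At e x)
    (i j : Fin n) : ContDiffAt ℝ ∞ (fun z => Bd φ m ρ θ δ e z i j) (e x) := by
  have h1 := (INT.isClosedForm_canonical (isCanonical_phiD (m := m) hφ hρ h0 hδ)).smooth e x hx i j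
  have h2 := hθ.smooth e x hx i j
  have h3 := (INT.isClosedForm_canonical hφ).smooth e x hx i j
  have hne : ρ (e.symm (e x)) + δ ≠ 0 := by
    rw [hx.left_inv]
    have := h0 x
    linarith
  have h4 : ContDiffAt ℝ ∞ (fun z => ρ (e.symm z) / (ρ (e.symm z) + δ)) (e x) :=
    (hρ e x hx).div ((hρ e x hx).add contDiffAt_const) hne
  have h5 : ContDiffAt ℝ ∞ (fun z => δ / (ρ (e.symm z) + δ)) (e x) :=
    contDiffAt_const.div ((hρ e x hx).add contDiffAt_const) hne
  have h6 : ContDiffAt ℝ ∞ (fun z => ((ρ (e.symm z) / (ρ (e.symm z) + δ) : ℝ) : ℂ)) (e x) :=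
    Complex.ofRealCLM.contDiff.contDiffAt.comp (e x) h4
  have h7 : ContDiffAt ℝ ∞ (fun z => ((δ / (ρ (e.symm z) + δ) : ℝ) : ℂ)) (e x) :=
    Complex.ofRealCLM.contDiff.contDiffAt.comp (e x) h5
  exact (h1.sub (h6.mul h2)).sub (h7.mul h3)

lemma mixD_add (M P Q : Matrix (Fin n) (Fin n) ℂ) : mixD M (P + Q) = mixD M P + mixD M Q := by
  simp only [mixD, Matrix.mul_add, Matrix.trace_add, Complex.add_re]

lemma mixD_sub (M P Q : Matrix (Fin n) (Fin n) ℂ) : mixD M (P - Q) = mixD M P - mixD M Q := by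
  simp only [mixD, Matrix.mul_sub, Matrix.trace_sub, Complex.sub_re]

lemma mixD_smul (M P : Matrix (Fin n) (Fin n) ℂ) (c : ℝ) :
    mixD M ((c : ℂ) • P) = c * mixD M P := by
  simp only [mixD, Matrix.mul_smul, Matrix.trace_smul, smul_eq_mul, Complex.re_ofReal_mul]

/-- interpolation of the mixed discriminant along a line -/
lemma mixD_lag (P Q R : Matrix (Fin n) (Fin n) ℂ) (s : ℝ) : mixD (P + (s : ℂ) • Q) R =
    ∑ j : Fin (n + 1), lag n j s * mixD (P + ((j : ℝ) : ℂ) • Q) R := by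
  simp only [mixD_interp, Finset.mul_sum]
  rw [Finset.sum_comm]
  refine Finset.sum_congr rfl fun i _ => ?_
  have h1 : ∀ t : ℂ, P + t • Q + ((nd i : ℝ) : ℂ) • R = (P + ((nd i : ℝ) : ℂ) • R) + t • Q :=
    fun t => by abel
  rw [h1, Vale.Agent.P281.H564.det_eq, Finset.mul_sum]
  refine Finset.sum_congr rfl fun j _ => ?_
  rw [h1]
  ring

section cpt

variable [T2Space X] [CompactSpace X]

/-- (e) interpolation of the mixed intersection number along a line -/
theorem mixX_lag (hA : IsClosedForm A) (hθ : IsClosedForm θ) (hB : IsForm B)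
    (sB : ∀ e x, At e x → ∀ i j, ContDiffAt ℝ ∞ (fun z => B e z i j) (e x)) (s : ℝ) :
    mixX (addF A s θ) B = ∑ j : Fin (n + 1), lag n j s * mixX (addF A (j : ℝ) θ) B := by
  have h1 : mixX (addF A s θ) B = intX fun (e : Chart n X) z =>
      ∑ j : Fin (n + 1), lag n j s * mixD (addF A (j : ℝ) θ e z) (B e z) :=
    INT.intX_congr fun e x _ => mixD_lag _ _ _ s
  rw [h1, INT.intX_sum Finset.univ (D := fun (j : Fin (n + 1)) e z =>
      lag n j s * mixD (addF A (j : ℝ) θ e z) (B e z)) fun j _ =>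
      ((isDensity_mixD (isClosed_addF hA hθ (j : ℝ)).form hB
        (isClosed_addF hA hθ (j : ℝ)).smooth sB).const_mul _)]
  refine Finset.sum_congr rfl fun j _ => ?_
  rw [INT.intX_const_mul]
  rfl

/-- the mass of `i∂∂̄ (φ + (1/m) log (ρ + δ))` does not depend on `δ` -/
lemma mixX_phiD (coh : CohPart) (hφ : IsCanonicalMetric φ) (hρ : SmoothFn (n := n) ρ)
    (h0 : ∀ x, 0 ≤ ρ x) (hA : IsClosedForm A) {δ : ℝ} (hδ : 0 < δ) :
    mixX A (cF (phiD φ m ρ δ)) = mixX A (cF φ) := by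
  have h0' : SmoothFn (n := n) (fun _ : X => (0 : ℝ)) := fun e x hx => contDiffAt_const
  rw [← coh n X A (cF φ) hA (INT.isClosedForm_canonical hφ) (fun _ => 0)
    (fun x => (m : ℝ)⁻¹ * Real.log (ρ x + δ)) h0' (smooth_logR hρ h0 m hδ)]
  refine mixX_congr (fun e x hx => ?_) fun e x hx => cHess_phiD hφ hρ h0 hδ hx
  show A e (e x) = A e (e x) + cHess (fun _ => (0 : ℝ)) (e x)
  have h1 : cHess (fun _ : Cm n => (0 : ℝ)) (e x) = 0 := by
    have h2 := cHess_const_mul (n := n) 0 (f := fun _ => (0 : ℝ)) (z := e x) contDiffAt_const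
    simpa using h2
  rw [h1, add_zero]

/-- (d) the limit of `∫ A ^ (n-1) ∧ B_δ` -/
theorem tendsto_mixX_Bd [ConnectedSpace X] {N : ℕ} {S : Fin N → X → ℂ} (coh : CohPart)
    (hχ : IsKahler χ) (hS : IsMoving n m S) (hφ : IsCanonicalMetric φ)
    (hρ : SmoothFn (n := n) ρ) (h0 : ∀ x, 0 ≤ ρ x) (hρS : ∀ x, ρ x = 0 ↔ ∀ b, S b x = 0)
    (hθ : IsClosedForm θ) (hA : IsClosedForm A) :
    Tendsto (fun δ : ℝ => mixX A (Bd φ m ρ θ δ)) (𝓝[>] 0)
      (𝓝 (mixX A (fun e z => cHess (φ e) z) - mixX A θ)) := by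
  have hχH := hχ.toIsHermitian
  have hcφ := INT.isClosedForm_canonical hφ
  have d1 := isDensity_mixD hA.form hθ.form hA.smooth hθ.smooth
  have d2 := isDensity_mixD hA.form hcφ.form hA.smooth hcφ.smooth
  obtain ⟨h, hhc, hh⟩ := exists_quot (d1.sub d2) hχH
  obtain ⟨b, x₀, hb⟩ := hS.ne
  have hρc : Continuous ρ := INT.SmoothFn.continuous hρ
  have hnull : ∀ e : Chart n X, e ∈ atlas (Cm n) X →
      MeasureTheory.volume {z | z ∈ e.target ∧ ρ (e.symm z) = 0} = 0 := fun e he =>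
    MeasureTheory.measure_mono_null (t := {z | z ∈ e.target ∧ S b (e.symm z) = 0})
      (fun z hz => ⟨hz.1, (hρS _).1 hz.2 b⟩)
      (Vale.Agent.P281.H227.SB.null_S (hS.sec b) ⟨x₀, hb⟩ he)
  have hlim := Vale.Agent.P281.H227.SB.tendsto_mass hχH hρc h0 hnull hhc
  have hlim2 : Tendsto (fun δ : ℝ => mixX A (cF φ) - mixX A θ +
      J χ (fun x => δ / (ρ x + δ) * h x)) (𝓝[>] 0) (𝓝 (mixX A (cF φ) - mixX A θ + 0)) :=
    hlim.const_add _
  rw [add_zero] at hlim2
  refine hlim2.congr' ?_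
  filter_upwards [self_mem_nhdsWithin] with δ hδ
  have hδ' : (0 : ℝ) < δ := hδ
  have hcan := INT.isClosedForm_canonical (isCanonical_phiD (m := m) hφ hρ h0 hδ')
  have d3 := isDensity_mixD hA.form hcan.form hA.smooth hcan.smooth
  have hc : Continuous fun x => δ / (ρ x + δ) * h x :=
    (continuous_const.div (hρc.add continuous_const) fun x =>
      (add_pos_of_nonneg_of_pos (h0 x) hδ').ne').mul hhc
  rw [← mixX_phiD (m := m) (ρ := ρ) coh hφ hρ h0 hA hδ']
  have e1 : mixX A (cF (phiD φ m ρ δ)) - mixX A θ = intX fun (e : Chart n X) z =>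
      mixD (A e z) (cHess (phiD φ m ρ δ e) z) - mixD (A e z) (θ e z) := (INT.intX_sub d3 d1).symm
  rw [e1]
  unfold J
  rw [← INT.intX_add (d3.sub d1) (Vale.Agent.P299.H882.J_dens hχH hc)]
  refine INT.intX_congr fun e x hx => ?_
  have e2 := hh e x hx
  beta_reduce at e2
  rw [hx.left_inv]
  show _ = mixD (A e (e x)) (Bd φ m ρ θ δ e (e x))
  unfold Bd
  rw [hx.left_inv, mixD_sub, mixD_sub, mixD_smul, mixD_smul, mul_assoc, ← e2]
  have e3 : ρ x + δ ≠ 0 := (add_pos_of_nonneg_of_pos (h0 x) hδ').ne'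
  field_simp
  ring

end cpt

end Vale.Agent.P281.H787
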