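import Vale.Agent.P281.H713.SA.T3
import Vale.Agent.P281.H713.SA.T4

/-! P281, theorem SAL, block TL: local extension of the pulled back tensors on `Z`, with poles. -/

open scoped Manifold ContDiff Topology ComplexOrder
open Set Filter Metric Asymptotics Vale.Agent.P272.K

noncomputable section

namespace Vale.Agent.P281.H787

open Vale.Agent.P281 Vale.Agent.P281.MF Vale.Agent.P281.ISO Vale.Agent.P281.H713.SA

set_option linter.unusedSectionVars false

section Local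

variable {n p : ℕ} {Z Y : Type} [TopologicalSpace Z] [ChartedSpace (Cm n) Z]
  [IsManifold 𝓘(ℂ, Cm n) ω Z] [TopologicalSpace Y] [ChartedSpace (Cm p) Y]
  [IsManifold 𝓘(ℂ, Cm p) ω Y]

theorem tens_localP {f : Z → Y} (hf : ∀ z, HolM (Cm n) (Cm p) f z) {S : Set Y} (hS : IsClosed S)
    (hthin : ∀ x, ∃ h : Z → ℂ, HolV (Cm n) h x ∧ (¬ ∀ᶠ z in 𝓝 x, h z = 0) ∧
      ∀ᶠ z in 𝓝 x, (f z ∈ S → h z = 0) ∧
        (h z = 0 → z ∈ closure {z | h z = 0 ∧ Good (Cm n) (Cm p) f S z}))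
    {m : ℕ} {k : Set Y → ℕ} {K : Set Z → ℕ} (hkpr : ∀ G, k G ≠ 0 → IsPrimeDivisor (Cm p) G)
    (hkS : ∀ G, k G ≠ 0 → G ⊆ S)
    (hexp : ∀ (D : Set Z) (G : Set Y) (κ : ℕ), IsPrimeDivisor (Cm n) D →
      IsPrimeDivisor (Cm p) G → closure (f '' D) = G → 0 < κ →
      (∃ z ∈ D, ∃ e g w, IsLocalEq (Cm n) D e z ∧ IsLocalEq (Cm p) G g (f z) ∧
        HolAt (Cm n) w z ∧ w z ≠ 0 ∧ ∀ᶠ x in 𝓝 z, g (f x) = e x ^ κ * w x) →
      κ * k G ≤ m * (κ - 1) + K D)
    {σ : Y → ℂ} (hσ : IsSection (Cm p) (fun (G : Set Y) z g => IsLocalEq (Cm p) G g z) m k σ)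
    {c : Z → Cm n} {z₀ : Z} (hc : HolV (Cm n) c z₀) (hcu : IsUnit (dV (Cm n) c z₀))
    (I : Fin (m * p) → Fin n) {T : Finset (Set Z)} {gT : Set Z → Z → ℂ}
    (hT : ∀ D, K D ≠ 0 → D ∈ T) (hgT : ∀ D ∈ T, IsLocalEq (Cm n) D (gT D) z₀) :
    ∃ Q : Z → ℂ, HolV (Cm n) Q z₀ ∧ ∀ᶠ z in 𝓝 z₀, f z ∉ S →
      σ (f z) * tT f m c I z * ∏ D ∈ T, gT D z ^ K D = Q z := by
  classical
  have hkfin : {G | k G ≠ 0}.Finite := by
    obtain ⟨T, -, -, hT, -⟩ := hσ (f z₀)
    exact T.finite_toSet.subset fun G hG => hT G hG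
  have hfc : ∀ x, ContinuousAt f x := fun x => (hf x).continuousAt
  have hfcont : Continuous f := continuous_iff_continuousAt.2 hfc
  obtain ⟨TY, gY, aY, hTY, hgY, haY, hevY⟩ := hσ (f z₀)
  obtain ⟨Den, hDen, hDne, hDev⟩ := hthin z₀
  set ψ := chartAt (Cm p) (f z₀) with hψ
  have hy₀s : f z₀ ∈ ψ.source := mem_chart_source (Cm p) (f z₀)
  set PY : Y → ℂ := fun y => ∏ G ∈ TY, gY G y ^ k G with hPY
  set PX : Z → ℂ := fun z => ∏ D ∈ T, gT D z ^ K D with hPX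
  set h₀ : Z → ℂ := fun z => σ (f z) * tT f m c I z * PX z with hh₀
  set t₀ : Z → ℂ := fun z => tq m ((dV (Cm n) (fun z => (ψ : Y → Cm p) (f z)) z).comp
    (Ring.inverse (dV (Cm n) c z))) I with ht₀
  have hgYe : ∀ᶠ z in 𝓝 z₀, ∀ G ∈ TY, IsLocalEq (Cm p) G (gY G) (f z) := by
    rw [Filter.eventually_all_finset]
    intro G hG
    exact (hfc z₀).eventually (hgY G hG).eventually
  have hgTe : ∀ᶠ z in 𝓝 z₀, ∀ D ∈ T, IsLocalEq (Cm n) D (gT D) z := by
    rw [Filter.eventually_all_finset]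
    intro D hD
    exact (hgT D hD).eventually
  set W : Z → Prop := fun z => (∀ G ∈ TY, IsLocalEq (Cm p) G (gY G) (f z)) ∧
    HolV (Cm n) c z ∧ IsUnit (dV (Cm n) c z) ∧ f z ∈ ψ.source ∧ HolV (Cm p) aY (f z) ∧
    (PY (f z) ≠ 0 → σ (f z) * PY (f z) = aY (f z) * jac (Cm p) ψ (f z) ^ m) ∧
    (∀ D ∈ T, IsLocalEq (Cm n) D (gT D) z) with hW
  have hWev : ∀ᶠ z in 𝓝 z₀, W z := by
    filter_upwards [hgYe, unit_nhds hc hcu,
      (hfc z₀).eventually (ψ.open_source.mem_nhds hy₀s),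
      (hfc z₀).eventually (HolV.eventually (E := Cm p) haY),
      (hfc z₀).eventually hevY, hgTe] with z h1 h2 h4 h5 h6 h7
    exact ⟨h1, h2.1, h2.2.1, h4, h5, h6, h7⟩
  have hWW : ∀ᶠ z in 𝓝 z₀, ∀ᶠ z' in 𝓝 z, W z' := eventually_eventually_nhds.2 hWev
  have hPY0 : ∀ z, W z → f z ∉ S → PY (f z) ≠ 0 := by
    intro z hz hzS
    refine Finset.prod_ne_zero_iff.2 fun G hG => ?_
    by_cases hk : k G = 0
    · simp [hk]
    · refine pow_ne_zero _ fun h0 => hzS (hkS G hk ((hz.1 G hG).mem_iff.2 h0))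
  have hPYh : ∀ z, W z → HolV (Cm n) (fun z => PY (f z)) z := fun z hz =>
    HolV.prod fun G hG => (HolV.comp (E' := Cm p) (hz.1 G hG).holAt (hf z)).pow (k G)
  have hPXh : ∀ z, W z → HolV (Cm n) PX z := fun z hz =>
    HolV.prod fun D hD => HolV.pow (hz.2.2.2.2.2.2 D hD).holAt (K D)
  have hval : ∀ z, W z → f z ∉ S → h₀ z * PY (f z) = aY (f z) * t₀ z * PX z := by
    intro z hz hzS
    have h7 := hz.2.2.2.2.2.1 (hPY0 z hz hzS)
    have h8 := jac_tq (hf z) hz.2.2.2.1 m (Ring.inverse (dV (Cm n) c z)) I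
    simp only [hh₀, ht₀, tT]
    rw [← h8]
    linear_combination
      (tq m ((dM (Cm n) (Cm p) f z).comp (Ring.inverse (dV (Cm n) c z))) I) * PX z * h7
  have ht₀h : ∀ z, W z → HolV (Cm n) t₀ z := by
    intro z hz
    exact holV_tq m (holV_quot (HolV.comp (h := (ψ : Y → Cm p)) (HolV.chart hz.2.2.2.1) (hf z))
      hz.2.1 hz.2.2.1) I
  have hhol : ∀ z, (∀ᶠ z' in 𝓝 z, W z') → f z ∉ S → HolV (Cm n) h₀ z := by
    intro z hz hzS
    have hz0 := hz.self_of_nhds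
    have h1 : HolV (Cm n) (fun z => aY (f z) * t₀ z * PX z / PY (f z)) z :=
      HolV.div (((HolV.comp (E' := Cm p) hz0.2.2.2.2.1 (hf z)).mul (ht₀h z hz0)).mul
        (hPXh z hz0)) (hPYh z hz0) (hPY0 z hz0 hzS)
    refine h1.congr ?_
    filter_upwards [hz, (hS.isOpen_compl.preimage hfcont).mem_nhds hzS] with z' h2 h5
    have h6 := hPY0 z' h2 h5
    rw [eq_div_iff h6]
    exact hval z' h2 h5
  obtain ⟨Q, hQ, hQe⟩ := extendM_off (h := h₀) hDen hDne (by
    filter_upwards [hWW, hDev] with z hz hz' hz0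
    exact hhol z hz fun hzS => hz0 (hz'.1 hzS)) (by
    filter_upwards [hWW, hDev, eventually_eventually_nhds.2 hDev] with z hz hz' hz'' hz0
    have h1 := mem_closure_iff_frequently.1 (hz'.2 hz0)
    rw [mem_closure_iff_frequently]
    have h2 : ∃ᶠ y in 𝓝 z, (Den y = 0 ∧ Good (Cm n) (Cm p) f S y) ∧ (∀ᶠ z' in 𝓝 y, W z') ∧
        ∀ᶠ z' in 𝓝 y, (f z' ∈ S → Den z' = 0) :=
      h1.and_eventually ((eventually_eventually_nhds.2 hz).and
        ((eventually_eventually_nhds.2 hz'').mono fun y hy => hy.mono fun _ h => h.1))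
    suffices hsuf : ∀ y, (Den y = 0 ∧ Good (Cm n) (Cm p) f S y) → (∀ᶠ z' in 𝓝 y, W z') →
        (∀ᶠ z' in 𝓝 y, (f z' ∈ S → Den z' = 0)) →
        ∃ᶠ y' in 𝓝 y, Den y' = 0 ∧ ∃ C : ℝ, ∀ᶠ w in 𝓝 y', Den w ≠ 0 → ‖h₀ w‖ ≤ C by
      intro hcon
      obtain ⟨y, ⟨hy1, hy2, hy3⟩, hy4⟩ :=
        (h2.and_eventually (eventually_eventually_nhds.2 hcon)).exists
      exact hsuf y hy1 hy2 hy3 hy4
    rintro y ⟨hy0, hyg⟩ hyW hyD
    rcases hyg with hyS | ⟨D, G, e, g, w, κ, hDp, hGp, hDG, hyDm, he, hde, hg, hdg, hw, hw0,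
      hev⟩
    · intro hcon
      refine hcon.self_of_nhds ⟨hy0, ‖h₀ y‖ + 1, ?_⟩
      filter_upwards [(hhol y hyW hyS).continuousAt.norm.eventually_lt_const
        (lt_add_one ‖h₀ y‖)] with z hz _ using hz.le
    · have hrod := ROD_avoid_all₂ hf hDG hGp hDp hkfin (fun G' hG' => hkpr G' hG')
      have h3 := mem_closure_iff_frequently.1 (hrod.2.1 hyDm)
      refine (h3.and_eventually ((eventually_eventually_nhds.2 hyW).and
        ((eventually_eventually_nhds.2 hyD).and (he.eventually.and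
        ((dif_ne_eventually he.holAt hde).and (((hfc y).eventually hg.eventually).and
        (((hfc y).eventually (dif_ne_eventually hg.holAt hdg)).and
        ((HolV.eventually (E := Cm n) hw).and (((HolV.continuousAt (E := Cm n) hw).eventually_ne
          hw0).and (eventually_eventually_nhds.2 hev)))))))))).mono ?_
      rintro y' ⟨⟨hy'D, hy'av⟩, hW', hD', he', hde', hg', hdg', hw', hw0', hev'⟩
      have hev0 := hev'.self_of_nhds
      have hfyG : f y' ∈ G := by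
        rw [← hDG]
        exact subset_closure ⟨y', hy'D, rfl⟩
      have hg0 : g (f y') = 0 := hg'.mem_iff.1 hfyG
      have he0 : e y' = 0 := he'.mem_iff.1 hy'D
      have hκ0 : 0 < κ := by
        rcases Nat.eq_zero_or_pos κ with h0 | h0
        · exfalso
          have h4 := hev0.1
          rw [hg0, h0, pow_zero, one_mul] at h4
          exact hw0' h4.symm
        · exact h0
      refine ⟨hD'.self_of_nhds (hev0.2.1.2 hy'D), ?_⟩
      have hW0 := hW'.self_of_nhds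
      obtain ⟨C, hC0, hC⟩ := tq_bound (c := c) (y₀ := f z₀) hf hW0.2.2.2.1 hW0.2.1 hW0.2.2.1 hκ0
        he'.holAt hw' hg'.holAt hdg' (hev'.mono fun _ h => h.1) m I
      obtain ⟨C', hC'⟩ := good_bound' (TX := T) (eX := gT) (K := K)
        hf he' hg' hw' hw0' (hev'.mono fun _ h => h.1) hW0.2.2.2.2.2.2 (by
          intro h
          by_contra h0
          exact h (hT _ h0)) hW0.1 (k := k) (by
          intro h
          by_contra h0
          exact h (hTY _ h0)) (fun G' _ hk' hne' => hy'av G' hk' hne')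
        (A := fun z => aY (f z))
        (HolV.comp (E' := Cm p) hW0.2.2.2.2.1 (hf y')).continuousAt (n := m)
        (hexp D G κ hDp hGp hDG hκ0 ⟨y', hy'D, e, g, w, he', hg', hw', hw0',
            hev'.mono fun _ h => h.1⟩)
      refine ⟨C * C', ?_⟩
      filter_upwards [hC, hC', hW', hD'] with z h4 h5 h6 h7 hz0
      have hzS : f z ∉ S := fun h => hz0 (h7 h)
      have h8 := hPY0 z h6 hzS
      have h10 := hval z h6 hzS
      have h11 : ‖h₀ z‖ * ‖PY (f z)‖ ≤ (C * C') * ‖PY (f z)‖ := by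
        calc ‖h₀ z‖ * ‖PY (f z)‖ = ‖aY (f z)‖ * ‖t₀ z‖ * ‖PX z‖ := by
              rw [← norm_mul, h10, norm_mul, norm_mul]
          _ ≤ ‖aY (f z)‖ * (C * ‖e z‖ ^ (m * (κ - 1))) * ‖PX z‖ := by
              gcongr
          _ = C * ‖aY (f z) * e z ^ (m * (κ - 1)) * PX z‖ := by
              rw [norm_mul, norm_mul, norm_pow]; ring
          _ ≤ C * (C' * ‖PY (f z)‖) := by
              gcongr
          _ = (C * C') * ‖PY (f z)‖ := by ring
      exact le_of_mul_le_mul_right h11 (by positivity))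
  refine ⟨Q, hQ, ?_⟩
  filter_upwards [hQe, eventually_eventually_nhds.2 hQe, hWW, ne_frequently hDen hDne,
    hQ.eventually] with z h1 h2 h3 h4 h5 hzS
  by_contra hcon
  have h7 : ContinuousAt (fun y => h₀ y - Q y) z :=
    (hhol z h3 hzS).continuousAt.sub h5.continuousAt
  have h8 := h7.eventually_ne (sub_ne_zero.2 hcon)
  obtain ⟨y, hy, hy1, hy2⟩ := (h4.and_eventually (h2.and h8)).exists
  exact hy2 (sub_eq_zero.2 (hy1 hy))

end Local

end Vale.Agent.P281.H787
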