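import Vale.Agent.P281.H713.SA.T6
import Vale.Agent.P281.H716.Iface
import Vale.Agent.P281.ISO.Main
import Vale.Agent.P281.H787.TA

/-! P281, theorem SAL, block TL: the pulled back tensors on `X`, with poles. -/

open scoped Manifold ContDiff Topology ComplexOrder
open Set Filter Metric Asymptotics Vale.Agent.P272.K

noncomputable section

namespace Vale.Agent.P281.H787

open Vale.Agent.P281 Vale.Agent.P281.MF Vale.Agent.P281.ISO Vale.Agent.P281.H713.SA
open Vale.Agent.P281.H716 Vale.Agent.P299.D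

set_option linter.unusedSectionVars false

section Emb

variable {n : ℕ} {X Z : Type} [TopologicalSpace X] [ChartedSpace (Cm n) X]
  [IsManifold 𝓘(ℂ, Cm n) ω X] [TopologicalSpace Z] [ChartedSpace (Cm n) Z]
  [IsManifold 𝓘(ℂ, Cm n) ω Z]

/-- the local equations of the boundary of `X` are multiples of those of the boundary of `Z` -/
theorem poles_emb {j : Z → X} (hj : ∀ z, HolM (Cm n) (Cm n) j z) {K : Set X → ℕ} {K' : Set Z → ℕ}
    (hK : ∀ D, K D ≠ 0 → K D = K' (j ⁻¹' D)) (hK' : ∀ D', K' D' ≠ 0 → ∃ D, K D ≠ 0 ∧ D' = j ⁻¹' D)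
    {T : Finset (Set X)} {g : Set X → X → ℂ} {z : Z} (hT : ∀ D, K D ≠ 0 → D ∈ T)
    (hg : ∀ D ∈ T, IsLocalEq (Cm n) D (g D) (j z))
    {T' : Finset (Set Z)} {g' : Set Z → Z → ℂ} (hT' : ∀ D' ∈ T', K' D' ≠ 0)
    (hg' : ∀ D' ∈ T', IsLocalEq (Cm n) D' (g' D') z) :
    ∃ u : Z → ℂ, HolV (Cm n) u z ∧ ∀ᶠ w in 𝓝 z,
      ∏ D ∈ T, g D (j w) ^ K D = (∏ D' ∈ T', g' D' w ^ K' D') * u w := by
  classical
  have hjc : ContinuousAt j z := ContMDiffAt.continuousAt (hj z)
  have hch : ∀ D', ∃ D, K' D' ≠ 0 → K D ≠ 0 ∧ D' = j ⁻¹' D := by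
    intro D'
    by_cases h : K' D' = 0
    · exact ⟨∅, fun h' => absurd h h'⟩
    · obtain ⟨D, h1, h2⟩ := hK' D' h
      exact ⟨D, fun _ => ⟨h1, h2⟩⟩
  choose Dc hDc using hch
  have hu : ∀ D', ∃ u : Z → ℂ, D' ∈ T' → HolV (Cm n) u z ∧
      ∀ᶠ w in 𝓝 z, g (Dc D') (j w) = g' D' w * u w := by
    intro D'
    by_cases hD : D' ∈ T'
    · obtain ⟨h3, h4⟩ := hDc D' (hT' D' hD)
      have h5 := hg _ (hT _ h3)
      obtain ⟨u, hu1, hu2⟩ := van_div (hg' D' hD)
        (HolV.comp h5.holAt (hj z) : HolV (Cm n) (fun w => g (Dc D') (j w)) z) (by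
          filter_upwards [hjc.eventually h5.eventually] with w hw hwD
          rw [h4] at hwD
          exact hw.mem_iff.1 hwD)
      exact ⟨u, fun _ => ⟨hu1, hu2⟩⟩
    · exact ⟨0, fun h => absurd h hD⟩
  choose u hu using hu
  have hinj : InjOn Dc (T' : Set (Set Z)) := by
    intro D₁ h₁ D₂ h₂ h
    rw [(hDc D₁ (hT' _ h₁)).2, (hDc D₂ (hT' _ h₂)).2, h]
  have hsub : T'.image Dc ⊆ T := by
    intro D hD
    obtain ⟨D', hD', rfl⟩ := Finset.mem_image.1 hD
    exact hT _ (hDc D' (hT' D' hD')).1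
  refine ⟨fun w => (∏ D' ∈ T', u D' w ^ K' D') * ∏ D ∈ T \ T'.image Dc, g D (j w) ^ K D, ?_, ?_⟩
  · refine HolV.mul (HolV.prod fun D' hD' => HolV.pow (hu D' hD').1 _) ?_
    exact HolV.prod fun D hD => HolV.pow
        (HolV.comp (hg D (Finset.mem_sdiff.1 hD).1).holAt (hj z) :
          HolV (Cm n) (fun w => g D (j w)) z) _
  · have e1 : ∀ᶠ w in 𝓝 z, ∀ D' ∈ T', g (Dc D') (j w) = g' D' w * u D' w := by
      rw [Filter.eventually_all_finset]
      exact fun D' hD' => (hu D' hD').2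
    filter_upwards [e1] with w h3
    rw [← Finset.prod_sdiff hsub, Finset.prod_image hinj]
    have h4 : ∏ D' ∈ T', g (Dc D') (j w) ^ K (Dc D') =
        (∏ D' ∈ T', g' D' w ^ K' D') * ∏ D' ∈ T', u D' w ^ K' D' := by
      rw [← Finset.prod_mul_distrib]
      refine Finset.prod_congr rfl fun D' hD' => ?_
      have h9 := hDc D' (hT' D' hD')
      rw [h3 D' hD', hK _ h9.1, ← h9.2, mul_pow]
    rw [h4]
    ring

/-- a function holomorphic in the coordinates of the chart `e` -/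
theorem analyticAt_symm {e : Chart n X} {x : X} (h : At e x) {F : X → ℂ} (hF : HolV (Cm n) F x) :
    AnalyticAt ℂ (fun z => F (e.symm z)) (e x) := by
  have hmem : e ∈ IsManifold.maximalAtlas 𝓘(ℂ, Cm n) ω X := IsManifold.subset_maximalAtlas h.1
  have h2 : ContMDiffAt 𝓘(ℂ, Cm n) 𝓘(ℂ, Cm n) ω e.symm (e x) :=
    contMDiffAt_symm_of_mem_maximalAtlas hmem (e.map_source h.2)
  have h3 : ContMDiffAt 𝓘(ℂ, Cm n) 𝓘(ℂ, ℂ) ω (fun z => F (e.symm z)) (e x) := by
    refine ContMDiffAt.comp (I' := 𝓘(ℂ, Cm n)) (g := F) (e x) ?_ h2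
    rw [e.left_inv h.2]
    exact hF
  exact (contMDiffAt_iff_contDiffAt.1 h3).analyticAt

end Emb

/-- **Block TL**. -/
theorem tensorPartL : TensorPartL := by
  classical
  intro n p X Z Y _ _ _ _ _ _ _ _ _ _ _ _ _ _ j hj f hf 𝒢 h𝒢 Δ hsnc Δ' hsnc' hΔ m K hKΔ k hk hkG
  obtain ⟨hj0, hj₁, hj₂, hthinj⟩ := hj
  obtain ⟨h𝒢fin, h𝒢pr, 𝒟, h𝒟fin, hpre, hdom⟩ := h𝒢
  have hs := JB.snc hsnc
  have hs' := JB.snc hsnc'
  have hjh : ∀ z, HolM (Cm n) (Cm n) j z := fun z => hj0 z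
  have hfh : ∀ z, HolM (Cm n) (Cm p) f z := fun z => hf z
  have hfcont : Continuous f := hf.continuous
  set S : Set Y := ⋃₀ 𝒢 with hS
  have hSc : IsClosed S := by
    rw [hS, sUnion_eq_biUnion]
    exact h𝒢fin.isClosed_biUnion fun G hG => (h𝒢pr G hG).1
  have h𝒟pr : ∀ D ∈ 𝒟, IsPrimeDivisor (Cm n) D := fun D hD => by
    obtain ⟨G, hG, h1, -⟩ := hdom D hD
    exact h1
  have hthin := thin_of_components (f := f) hfh h𝒟fin h𝒢pr h𝒟pr hpre (fun D hD => by
    obtain ⟨G, hG, h1, h2, h3⟩ := hdom D hD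
    exact ⟨G, hG, h2, h3⟩)
  -- the good set
  set Ω : Set X := {x | ∃ z, j z = x ∧ f z ∉ S} with hΩ
  have hΩj : Ω ⊆ range j := by
    rintro x ⟨z, rfl, -⟩
    exact mem_range_self z
  have hjd : Dense (range j) := by
    intro x
    obtain ⟨h, -, hne, hev⟩ := hthinj x
    rw [mem_closure_iff_frequently]
    intro hcon
    apply hne
    filter_upwards [hcon, hev] with z hz hz'
    exact hz'.1 hz
  have hΩd : Dense Ω := by
    have h1 : Dense {z | f z ∉ S} := by
      intro x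
      obtain ⟨h, -, hne, hev⟩ := hthin x
      rw [mem_closure_iff_frequently]
      intro hcon
      apply hne
      filter_upwards [hcon, hev] with z hz hz'
      exact hz'.1 (not_not.1 hz)
    have h2 : j '' {z | f z ∉ S} = Ω := by
      ext x
      constructor
      · rintro ⟨z, hz, rfl⟩
        exact ⟨z, rfl, hz⟩
      · rintro ⟨z, rfl, hz⟩
        exact ⟨z, hz, rfl⟩
    rw [← h2]
    exact DenseRange.dense_image (f := j) hjd hj₁.continuous h1
  have hkpr : ∀ G, k G ≠ 0 → IsPrimeDivisor (Cm p) G := fun G hG => h𝒢pr G (hkG G hG)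
  have hkS : ∀ G, k G ≠ 0 → G ⊆ S := fun G hG => subset_sUnion_of_mem (hkG G hG)
  -- the boundary on `Z`
  set K' : Set Z → ℕ := fun D' => ⌊(m : ℝ) * Δ' D'⌋₊ with hK'd
  have hK'Δ : ∀ D', (K' D' : ℝ) = m * Δ' D' := by
    intro D'
    by_cases h : Δ' D' = 0
    · simp [hK'd, h]
    · obtain ⟨D, h1, h2⟩ := hΔ.2 D' h
      have h3 : (m : ℝ) * Δ' D' = (K D : ℝ) := by rw [h2, hΔ.1 D h1, hKΔ]
      show ((⌊(m : ℝ) * Δ' D'⌋₊ : ℕ) : ℝ) = _
      rw [h3, Nat.floor_natCast]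
  have hKne : ∀ D, K D ≠ 0 → Δ D ≠ 0 := by
    intro D hD h0
    apply hD
    have := hKΔ D
    rw [h0, mul_zero] at this
    exact_mod_cast this
  have hK'ne : ∀ D', K' D' ≠ 0 → Δ' D' ≠ 0 := by
    intro D' hD' h0
    apply hD'
    have := hK'Δ D'
    rw [h0, mul_zero] at this
    exact_mod_cast this
  have hKK' : ∀ D, K D ≠ 0 → K D = K' (j ⁻¹' D) := by
    intro D hD
    have h1 : (K D : ℝ) = (K' (j ⁻¹' D) : ℝ) := by
      rw [hKΔ, hK'Δ, hΔ.1 D (hKne D hD)]
    exact_mod_cast h1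
  have hK'K : ∀ D', K' D' ≠ 0 → ∃ D, K D ≠ 0 ∧ D' = j ⁻¹' D := by
    intro D' hD'
    obtain ⟨D, h1, h2⟩ := hΔ.2 D' (hK'ne D' hD')
    refine ⟨D, ?_, h2⟩
    intro h0
    apply hD'
    have h3 : (K' D' : ℝ) = (K D : ℝ) := by
      rw [hKΔ, hK'Δ, h2, hΔ.1 D h1]
    rw [h0] at h3
    exact_mod_cast h3
  have hfin' : {D' | K' D' ≠ 0}.Finite := hs'.finite.subset fun D' hD' => hK'ne D' hD'
  have hexp : ∀ (D : Set Z) (G : Set Y) (κ : ℕ), IsPrimeDivisor (Cm n) D →
      IsPrimeDivisor (Cm p) G → closure (f '' D) = G → 0 < κ →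
      (∃ z ∈ D, ∃ e g w, IsLocalEq (Cm n) D e z ∧ IsLocalEq (Cm p) G g (f z) ∧
        HolAt (Cm n) w z ∧ w z ≠ 0 ∧ ∀ᶠ x in 𝓝 z, g (f x) = e x ^ κ * w x) →
      κ * k G ≤ m * (κ - 1) + K' D := by
    intro D G κ hD hG hDG hκ hx
    obtain ⟨h01, h02⟩ := snc01 hs' D
    have h1 := orbBase'_mul_le hκ hG hD hDG hx h01 h02
    have h2 := hk G
    have h3 : (κ : ℝ) * k G ≤ m * (κ - 1) + K' D := by
      calc (κ : ℝ) * k G ≤ κ * (m * J.orbBase' (Cm n) (Cm p) f Δ' G) :=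
            mul_le_mul_of_nonneg_left h2 (Nat.cast_nonneg κ)
        _ = m * (κ * J.orbBase' (Cm n) (Cm p) f Δ' G) := by ring
        _ ≤ m * (κ - 1 + Δ' D) := mul_le_mul_of_nonneg_left h1 (Nat.cast_nonneg m)
        _ = m * (κ - 1) + K' D := by rw [hK'Δ]; ring
    have h4 : ((κ - 1 : ℕ) : ℝ) = (κ : ℝ) - 1 := by
      rw [Nat.cast_sub hκ]; simp
    rw [← h4] at h3
    exact_mod_cast h3
  refine ⟨m * p, fun e z I => tT f m (fun z => e (j z)) I z, ?_, ?_⟩
  · intro e z h hsurj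
    refine tq_ne_zero m ?_
    have hu := isUnit_ej hjh hj₂ h
    intro y
    obtain ⟨v, hv⟩ := hsurj y
    refine ⟨dV (Cm n) (fun z => e (j z)) z v, ?_⟩
    have h4 : (Ring.inverse (dV (Cm n) (fun z => e (j z)) z)) *
        (dV (Cm n) (fun z => e (j z)) z) = 1 := Ring.inverse_mul_cancel _ hu
    have h5 := congrArg (fun T : Cm n →L[ℂ] Cm n => T v) h4
    show dM (Cm n) (Cm p) f z (Ring.inverse (dV (Cm n) (fun z => e (j z)) z)
      (dV (Cm n) (fun z => e (j z)) z v)) = y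
    have h6 : Ring.inverse (dV (Cm n) (fun z => e (j z)) z)
      (dV (Cm n) (fun z => e (j z)) z v) = v := h5
    rw [h6]
    exact hv
  · intro σ hσ
    -- local extensions, multiplied by the equations of the poles
    have hlocP : ∀ (e : Chart n X), e ∈ atlas (Cm n) X → ∀ I : Fin (m * p) → Fin n,
        ∀ x ∈ e.source, ∀ (T : Finset (Set X)) (g : Set X → X → ℂ), (∀ D, K D ≠ 0 → D ∈ T) →
        (∀ D ∈ T, IsLocalEq (Cm n) D (g D) x) → ∃ Q : X → ℂ, HolV (Cm n) Q x ∧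
          ∀ᶠ y in 𝓝 x, y ∈ Ω → hX j f m σ e I y * ∏ D ∈ T, g D y ^ K D = Q y := by
      intro e he I x hx T g hT hg
      have hev : ∀ᶠ y in 𝓝 x, y ∈ e.source ∧ ∀ D ∈ T, IsLocalEq (Cm n) D (g D) y := by
        refine Filter.Eventually.and (e.open_source.mem_nhds hx) ?_
        rw [Filter.eventually_all_finset]
        exact fun D hD => (hg D hD).eventually
      obtain ⟨U, hUsub, hUo, hxU⟩ := _root_.mem_nhds_iff.1 hev
      refine ext_big (h := fun y => hX j f m σ e I y * ∏ D ∈ T, g D y ^ K D) hj₁ hthinj hΩj hΩd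
        hUo ?_ hxU
      rintro x₁ hx₁ ⟨z₀, rfl⟩
      obtain ⟨hx₁s, hx₁g⟩ := hUsub hx₁
      have hAt : At e (j z₀) := ⟨he, hx₁s⟩
      have hch : ∀ D', ∃ g : Z → ℂ, D' ∈ hfin'.toFinset → IsLocalEq (Cm n) D' g z₀ := by
        intro D'
        by_cases hD : D' ∈ hfin'.toFinset
        · obtain ⟨e', he'⟩ := (hs'.prime D' (hK'ne D' (hfin'.mem_toFinset.1 hD))).2.1 z₀
          exact ⟨e', fun _ => he'⟩
        · exact ⟨0, fun h => absurd h hD⟩
      choose g' hg' using hch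
      obtain ⟨Q, hQ, hQe⟩ := tens_localP hfh hSc hthin hkpr hkS hexp hσ (holV_ej hjh hAt)
        (isUnit_ej hjh hj₂ hAt) I (fun D' hD' => hfin'.mem_toFinset.2 hD') hg'
      obtain ⟨u, hu, hue⟩ := poles_emb hjh hKK' hK'K hT hx₁g
        (T' := hfin'.toFinset) (fun D' hD' => hfin'.mem_toFinset.1 hD') hg'
      set Q' : X → ℂ := fun x => if h : x ∈ range j then Q h.choose * u h.choose else 0 with hQ'
      have hQj : ∀ w, Q' (j w) = Q w * u w := by
        intro w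
        have h1 : j w ∈ range j := mem_range_self w
        have h2 : h1.choose = w := hj₁.injective h1.choose_spec
        simp only [hQ']
        rw [dif_pos h1, h2]
      refine ⟨Q', holV_of_comp (hjh z₀) (hj₂ z₀) (by simpa only [hQj] using hQ.mul hu), ?_⟩
      rw [← hj₁.map_nhds_eq z₀, eventually_map]
      filter_upwards [hQe, hue] with w hw hw2 hwΩ
      obtain ⟨w', hw', hfw⟩ := hwΩ
      have h3 : w' = w := hj₁.injective hw'
      subst h3
      rw [hX_j hj₁, hQj, hw2, ← hw hfw]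
      ring
    -- local equations exist
    have hfin : {D | K D ≠ 0}.Finite := hs.finite.subset fun D hD => hKne D hD
    have heqn : ∀ x, ∃ g : Set X → X → ℂ, ∀ D ∈ hfin.toFinset, IsLocalEq (Cm n) D (g D) x := by
      intro x
      have hch : ∀ D, ∃ g : X → ℂ, D ∈ hfin.toFinset → IsLocalEq (Cm n) D g x := by
        intro D
        by_cases hD : D ∈ hfin.toFinset
        · obtain ⟨e', he'⟩ := (hs.prime D (hKne D (hfin.mem_toFinset.1 hD))).2.1 x
          exact ⟨e', fun _ => he'⟩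
        · exact ⟨0, fun h => absurd h hD⟩
      choose g hg using hch
      exact ⟨g, hg⟩
    -- local extensions off the poles
    have hloc : ∀ (e : Chart n X), e ∈ atlas (Cm n) X → ∀ I : Fin (m * p) → Fin n,
        ∀ x ∈ e.source, (∀ D, K D ≠ 0 → x ∉ D) → ∃ Q : X → ℂ, HolV (Cm n) Q x ∧
          ∀ᶠ y in 𝓝 x, y ∈ Ω → hX j f m σ e I y = Q y := by
      intro e he I x hx hav
      obtain ⟨g, hg⟩ := heqn x
      obtain ⟨Q, hQ, hQe⟩ := hlocP e he I x hx hfin.toFinset g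
        (fun D hD => hfin.mem_toFinset.2 hD) hg
      have hPh : HolV (Cm n) (fun y => ∏ D ∈ hfin.toFinset, g D y ^ K D) x :=
        HolV.prod fun D hD => HolV.pow (hg D hD).holAt _
      have hP0 : ∏ D ∈ hfin.toFinset, g D x ^ K D ≠ 0 := by
        refine Finset.prod_ne_zero_iff.2 fun D hD => pow_ne_zero _ fun h0 => ?_
        exact hav D (hfin.mem_toFinset.1 hD) ((hg D hD).mem_iff.2 h0)
      refine ⟨fun y => Q y / ∏ D ∈ hfin.toFinset, g D y ^ K D, HolV.div hQ hPh hP0, ?_⟩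
      filter_upwards [hQe, hPh.continuousAt.eventually_ne hP0] with y h1 h2 hy
      rw [eq_div_iff h2]
      exact h1 hy
    have havoid : ∀ x, (∀ D, K D ≠ 0 → x ∉ D) → ∀ᶠ y in 𝓝 x, ∀ D, K D ≠ 0 → y ∉ D := by
      intro x hav
      have h1 : ∀ᶠ y in 𝓝 x, ∀ D ∈ hfin.toFinset, y ∉ D := by
        rw [Filter.eventually_all_finset]
        intro D hD
        exact ((hs.prime D (hKne D (hfin.mem_toFinset.1 hD))).1.isOpen_compl).mem_nhds
          (hav D (hfin.mem_toFinset.1 hD))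
      filter_upwards [h1] with y hy D hD
      exact hy D (hfin.mem_toFinset.2 hD)
    refine ⟨fun e z I => if e ∈ atlas (Cm n) X then ext (Cm n) Ω (hX j f m σ e I) (e.symm z)
      else 0, ⟨?_, ?_⟩, ?_⟩
    · intro e x h T g hT hg I
      simp only [if_pos h.1]
      obtain ⟨Q, hQ, hQe⟩ := hlocP e h.1 I x h.2 T g hT hg
      refine ⟨fun z => Q (e.symm z), analyticAt_symm h hQ, ?_⟩
      have hgev : ∀ᶠ y in 𝓝 x, ∀ D ∈ T, IsLocalEq (Cm n) D (g D) y := by
        rw [Filter.eventually_all_finset]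
        exact fun D hD => IsLocalEq.eventually (hg D hD)
      have hsymm : Tendsto e.symm (𝓝 (e x)) (𝓝 x) := by
        have := (e.continuousAt_symm (e.map_source h.2)).tendsto
        rwa [e.left_inv h.2] at this
      have hev : ∀ᶠ y in 𝓝 x, ∏ D ∈ T, g D y ^ K D ≠ 0 →
          ext (Cm n) Ω (hX j f m σ e I) y * ∏ D ∈ T, g D y ^ K D = Q y := by
        filter_upwards [hgev, hQ.eventually, hQe.eventually_nhds, e.open_source.mem_nhds h.2] with
          y h1 h2 h3 h4 h5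
        have hav : ∀ D, K D ≠ 0 → y ∉ D := by
          intro D hD hyD
          refine h5 (Finset.prod_eq_zero (hT D hD) ?_)
          rw [(h1 D (hT D hD)).mem_iff.1 hyD, zero_pow hD]
        have h6 := hloc e h.1 I y h4 hav
        have h7 : HolV (Cm n) (fun y => ∏ D ∈ T, g D y ^ K D) y :=
          HolV.prod fun D hD => HolV.pow (h1 D hD).holAt _
        refine eq_of_dense (x := y) (g := fun y => ext (Cm n) Ω (hX j f m σ e I) y *
          ∏ D ∈ T, g D y ^ K D) (h := Q) hΩd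
          ((ext_holV hΩd h6).continuousAt.mul h7.continuousAt) h2.continuousAt ?_
        filter_upwards [h3, havoid y hav, e.open_source.mem_nhds h4] with w hw1 hw2 hw3 hw
        rw [ext_self hΩd (hloc e h.1 I w hw3 hw2) hw]
        exact hw1 hw
      exact hsymm.eventually hev
    · intro e e' x h h' hav I
      simp only [tenPull, if_pos h.1, if_pos h'.1, e.left_inv h.2, e'.left_inv h'.2]
      refine eq_of_dense (x := x) (g := fun y => ext (Cm n) Ω (hX j f m σ e I) y)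
        (h := fun y => ∑ K : Fin (m * p) → Fin n, (∏ a, jacM e e' y (K a) (I a)) *
          ext (Cm n) Ω (hX j f m σ e' K) y) hΩd
        (ext_holV hΩd (hloc e h.1 I x h.2 hav)).continuousAt ?_ ?_
      · refine tendsto_finsetSum _ fun K _ => Tendsto.mul ?_
          (ext_holV hΩd (hloc e' h'.1 K x h'.2 hav)).continuousAt
        exact tendsto_finsetProd _ fun a _ => contAt_jacM h h' (K a) (I a)
      · filter_upwards [e.open_source.mem_nhds h.2, e'.open_source.mem_nhds h'.2,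
          havoid x hav] with y h1 h2 h4 hy
        have h3 : ∀ K, ext (Cm n) Ω (hX j f m σ e' K) y = hX j f m σ e' K y := fun K =>
          ext_self hΩd (hloc e' h'.1 K y h2 h4) hy
        rw [ext_self hΩd (hloc e h.1 I y h1 h4) hy]
        simp only [h3]
        obtain ⟨z, rfl, hz⟩ := hy
        simp only [hX_j hj₁]
        rw [tT_change hjh hj₂ f m (e := e) (e' := e') ⟨h.1, h1⟩ ⟨h'.1, h2⟩ I, Finset.mul_sum]
        exact Finset.sum_congr rfl fun K _ => by ring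
    · intro e z h hz hav I
      simp only [if_pos h.1, e.left_inv h.2]
      have hzΩ : j z ∈ Ω := ⟨z, rfl, hz⟩
      rw [ext_self hΩd (hloc e h.1 I _ h.2 fun D hD => hav D (hKne D hD)) hzΩ, hX_j hj₁]

end Vale.Agent.P281.H787
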