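import Vale.Agent.P281.H949.GM.F
import Vale.Agent.P281.H713.SB.Iface

/-! P281, theorem SB, block MA: the metrics `φ + (1/m) log (∑ |s b|² + δ)` on `K_X`. -/

open scoped Manifold ContDiff Topology ComplexOrder
open Set Filter Vale.Agent.P281.J Vale.Agent.P272.K Vale.Agent.P272.K.AMP

noncomputable section

namespace Vale.Agent.P281.H787

open Vale.Agent.P281.H713.SA Vale.Agent.P281.H713.SB Vale.Agent.P281.H949.SA
  Vale.Agent.P281.H949.GM Vale.Agent.P299.H223

section

variable {n : ℕ} {X : Type} [TopologicalSpace X] [ChartedSpace (Cm n) X]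
  [IsManifold 𝓘(ℂ, Cm n) ω X]

lemma dj_chartAt (x : X) : dj (chartAt (Cm n) x) x = 1 := by
  have h1 : De (chartAt (Cm n) x) x = ContinuousLinearMap.id ℂ (Cm n) := by
    refine ContinuousLinearMap.ext fun v => ?_
    have h2 := mfderiv_chartAt_eq_tangentCoordChange (I := 𝓘(ℂ, Cm n)) (mem_chart_source (Cm n) x)
    have h4 := congrArg (fun T : Cm n →L[ℂ] Cm n => T v) h2
    exact h4.trans (tangentCoordChange_self (I := 𝓘(ℂ, Cm n)) (by simp))
  unfold dj
  rw [h1]
  simp [ContinuousLinearMap.det]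

lemma rho_eq_Qn (φ : Chart n X → Cm n → ℝ) (m : ℕ) {N : ℕ} (s : Fin N → X → ℂ) :
    H949.GM.rho φ m s = Qn φ m s := by
  funext x
  unfold H949.GM.rho Qn nsq
  congr 1
  refine Finset.sum_congr rfl fun b _ => ?_
  unfold coef
  rw [(chartAt (Cm n) x).left_inv (mem_chart_source _ _), dj_chartAt, one_pow, div_one]

end

/-- **Block MA**. -/
theorem metricPartA : MetricPartA := by
  intro n X _ _ _ _ _ w hw φ hφ m N hm s hs
  have hQs : SmoothFn (n := n) (Qn φ m s) := by
    rw [← rho_eq_Qn]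
    exact rho_smooth hφ hs
  refine ⟨hQs, ?_⟩
  have hwh : IsHermitian w := hw.toIsHermitian
  have hcl := INT.isClosedForm_canonical hφ
  obtain ⟨C, hC0, hC⟩ := Vale.Agent.P272.K.AMP.Main.exists_comparison'
    (b := fun e z => -cHess (φ e) z) hwh
    (fun e x h i j => (hcl.smooth e x h i j).neg) (fun e e' x h h' => by
      show -cHess (φ e) (e x) = _ * -cHess (φ e') (e' x) * _
      have h1 : cHess (φ e) (e x) = (jacM e e' x).transpose * cHess (φ e') (e' x) *
        (jacM e e' x).map (starRingEnd ℂ) := hcl.form e e' x h h'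
      rw [h1, Matrix.mul_neg, Matrix.neg_mul]) (fun e x h => by
      have h1 : (cHess (φ e) (e x)).IsHermitian :=
        C2.cHess_isHermitian ((hφ.smooth e x h).of_le (by exact WithTop.coe_le_coe.2 le_top))
      exact h1.neg)
  refine ⟨C, fun δ hδ e x h => ?_⟩
  have h1 := curvGe hm hφ hs hC δ hδ e x h
  rw [rho_eq_Qn] at h1
  have hQ0 : ∀ y, 0 ≤ Qn φ m s y := fun y => by
    rw [← rho_eq_Qn]; exact rho_nonneg y
  have hlog : SmoothFn (n := n) fun y => Real.log (Qn φ m s y + δ) := fun e x h =>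
    ((hQs e x h).add contDiffAt_const).log (by have := hQ0 (e.symm (e x)); positivity)
  have h2 : cHess (H167.GM.phiD φ m (Qn φ m s) δ e) (e x) = cHess (φ e) (e x) +
      (((m : ℝ)⁻¹ : ℝ) : ℂ) • hess (fun y => Real.log (Qn φ m s y + δ)) e (e x) := by
    have hφ2 : ContDiffAt ℝ 2 (φ e) (e x) :=
      (hφ.smooth e x h).of_le (by exact WithTop.coe_le_coe.2 le_top)
    have hl2 : ContDiffAt ℝ 2 (fun z => Real.log (Qn φ m s (e.symm z) + δ)) (e x) :=
      (hlog e x h).of_le (by exact WithTop.coe_le_coe.2 le_top)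
    have h3 := cHess_add hφ2 (contDiffAt_const (c := (m : ℝ)⁻¹).mul hl2)
    have h4 := cHess_const_mul ((m : ℝ)⁻¹) hl2
    unfold hess
    rw [← h4]
    exact h3
  unfold thB
  rw [h2] at h1
  rw [h.left_inv]
  exact h1

end Vale.Agent.P281.H787
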