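import Vale.Agent.P281.H787.KDK

/-! P281, theorem KD, block TK: the exact order of the poles. -/

open scoped Manifold ContDiff Topology ComplexOrder
open Set Filter Metric Vale.Agent.P272.K

noncomputable section

namespace Vale.Agent.P281.H787.KD

open Vale.Agent.P281 Vale.Agent.P281.MF Vale.Agent.P281.ISO Vale.Agent.P281.H713.SA
open Vale.Agent.P299.D (Ten tenPull FormM)
open Vale.Agent.P281.H498 (IsEqs IsNum IsTenK ExactPart)

set_option linter.unusedSectionVars false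

section

variable {n q M : ℕ} {X : Type} [TopologicalSpace X] [ChartedSpace (Cm n) X]
  [IsManifold 𝓘(ℂ, Cm n) ω X]

theorem dense_off {Dv : Fin M → Set X} (hD : ∀ i, IsPrimeDivisor (Cm n) (Dv i)) :
    Dense {x | ∀ i, x ∉ Dv i} := by
  have h : ∀ s : Finset (Fin M), Dense {x | ∀ i ∈ s, x ∉ Dv i} ∧
      IsOpen {x | ∀ i ∈ s, x ∉ Dv i} := by
    intro s
    induction s using Finset.induction_on with
    | empty => simp
    | insert i s hi ih =>
      have h1 : {x | ∀ k ∈ insert i s, x ∉ Dv k} = (Dv i)ᶜ ∩ {x | ∀ k ∈ s, x ∉ Dv k} := by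
        ext x
        simp
      rw [h1]
      exact ⟨Dense.inter_of_isOpen_left (dense_compl_prime (hD i)) ih.1 (hD i).1.isOpen_compl,
        (hD i).1.isOpen_compl.inter ih.2⟩
  have h2 := (h Finset.univ).1
  simpa using h2

theorem IsEqs.ev {Dv : Fin M → Set X} {e : Chart n X} {x : X} (h : At e x)
    {g : Fin M → Cm n → ℂ} (hg : IsEqs Dv e x g) : ∀ᶠ y in 𝓝 x, IsEqs Dv e y g := by
  have h1 : ∀ᶠ y in 𝓝 x, ∀ i, AnalyticAt ℂ (g i) (e y) :=
    (e.continuousAt h.2).eventually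
      (Filter.eventually_all.2 fun i => (hg.1 i).eventually_analyticAt)
  have h2 : ∀ᶠ y in 𝓝 x, ∀ i, IsLocalEq (Cm n) (Dv i) (fun y => g i (e y)) y :=
    Filter.eventually_all.2 fun i => (hg.2 i).eventually
  filter_upwards [h1, h2] with y h1 h2 using ⟨h1, h2⟩

theorem IsNum.ev {K : Fin M → ℕ} {τ : Ten n q X} {e : Chart n X} {x : X} (h : At e x)
    {g : Fin M → Cm n → ℂ} {a : (Fin q → Fin n) → Cm n → ℂ} (ha : IsNum K τ e x g a) :
    ∀ᶠ y in 𝓝 x, IsNum K τ e y g a := by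
  have h1 : ∀ᶠ y in 𝓝 x, ∀ I, AnalyticAt ℂ (a I) (e y) :=
    (e.continuousAt h.2).eventually
      (Filter.eventually_all.2 fun I => (ha.1 I).eventually_analyticAt)
  have h2 := (e.continuousAt h.2).eventually (eventually_eventually_nhds.2 ha.2)
  filter_upwards [h1, h2] with y h1 h2 using ⟨h1, h2⟩

theorem at_ev {e : Chart n X} {x : X} (h : At e x) : ∀ᶠ y in 𝓝 x, At e y := by
  filter_upwards [e.open_source.mem_nhds h.2] with y hy using ⟨h.1, hy⟩

/-- the vanishing of the numerators does not depend on the choices -/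
theorem num_indep {Dv : Fin M → Set X} (hD : ∀ i, IsPrimeDivisor (Cm n) (Dv i))
    {K : Fin M → ℕ} {τ : Ten n q X} (hτ : IsTenK Dv K τ) {e e' : Chart n X} {x : X}
    (h : At e x) (h' : At e' x) {g g' : Fin M → Cm n → ℂ} (hg : IsEqs Dv e x g)
    (hg' : IsEqs Dv e' x g') {a a' : (Fin q → Fin n) → Cm n → ℂ} (ha : IsNum K τ e x g a)
    (ha' : IsNum K τ e' x g' a') (h0 : ∀ I, a' I (e' x) = 0) (I : Fin q → Fin n) :
    a I (e x) = 0 := by
  have hu : ∀ i, ∃ u : X → ℂ, HolV (Cm n) u x ∧ u x ≠ 0 ∧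
      ∀ᶠ z in 𝓝 x, g i (e z) = g' i (e' z) * u z := fun i => leq_unit (hg'.2 i) (hg.2 i)
  choose u hu hu0 hue using hu
  have hue' : ∀ᶠ z in 𝓝 x, ∀ i, g i (e z) = g' i (e' z) * u i z := Filter.eventually_all.2 hue
  have key : a I (e x) = (∏ i, u i x ^ K i) *
      ∑ J : Fin q → Fin n, (∏ t, jacM e e' x (J t) (I t)) * a' J (e' x) := by
    refine eq_of_dense (x := x) (g := fun y => a I (e y)) (h := fun y => (∏ i, u i y ^ K i) *
      ∑ J : Fin q → Fin n, (∏ t, jacM e e' y (J t) (I t)) * a' J (e' y)) (dense_off hD) ?_ ?_ ?_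
    · exact ContinuousAt.comp (f := (e : X → Cm n)) (ha.1 I).continuousAt (e.continuousAt h.2)
    · refine ContinuousAt.mul ?_ ?_
      · exact tendsto_finsetProd _ fun i _ => (hu i).continuousAt.pow (K i)
      · refine tendsto_finsetSum _ fun J _ => Tendsto.mul ?_ ?_
        · exact tendsto_finsetProd _ fun t _ => contAt_jacM h h' (J t) (I t)
        · exact ContinuousAt.comp (f := (e' : X → Cm n)) (ha'.1 J).continuousAt
            (e'.continuousAt h'.2)
    · filter_upwards [IsEqs.ev h hg, IsEqs.ev h' hg', (e.continuousAt h.2).eventually ha.2,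
        (e'.continuousAt h'.2).eventually ha'.2, at_ev h, at_ev h', hue'] with
        y h1 h2 h3 h4 h5 h6 h7 hy
      have h8 : ∀ i, g i (e y) ≠ 0 := fun i hi => hy i (((h1.2 i).mem_iff).2 hi)
      have h9 : ∀ i, g' i (e' y) ≠ 0 := fun i hi => hy i (((h2.2 i).mem_iff).2 hi)
      have h10 := h3 h8 I
      have h11 := h4 h9
      rw [← h10, hτ.change e e' y h5 h6 hy I]
      unfold tenPull
      rw [Finset.sum_mul, Finset.mul_sum]
      refine Finset.sum_congr rfl fun J _ => ?_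
      rw [← h11 J]
      have h12 : ∏ i, g i (e y) ^ K i = (∏ i, u i y ^ K i) * ∏ i, g' i (e' y) ^ K i := by
        rw [← Finset.prod_mul_distrib]
        refine Finset.prod_congr rfl fun i _ => ?_
        rw [h7 i, mul_pow]
        ring
      rw [h12]
      ring
  rw [key]
  simp [h0]

/-- the order of the poles can be lowered along `Dv i`, if the numerators vanish on `Dv i` -/
theorem lower {Dv : Fin M → Set X} {K : Fin M → ℕ} {τ : Ten n q X} (hτ : IsTenK Dv K τ)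
    {i : Fin M} (hi : K i ≠ 0) (hv : ∀ e x g a, At e x → IsEqs Dv e x g → IsNum K τ e x g a →
      ∀ᶠ y in 𝓝 x, y ∈ Dv i → ∀ I, a I (e y) = 0) :
    IsTenK Dv (Function.update K i (K i - 1)) τ := by
  refine ⟨fun e x h g hg => ?_, hτ.change⟩
  obtain ⟨a, ha⟩ := hτ.num e x h g hg
  have hva := hv e x g a h hg ha
  have hw : ∀ I, ∃ w : X → ℂ, HolV (Cm n) w x ∧ ∀ᶠ z in 𝓝 x, a I (e z) = g i (e z) * w z := by
    intro I
    exact van_div (hg.2 i) (HolV.comp_contDiff (G := a I) (ha.1 I).contDiffAt (holV_at h))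
      (hva.mono fun y hy hyD => hy hyD I)
  choose w hw hwe using hw
  refine ⟨fun I v => w I (e.symm v), fun I => analyticAt_symm h (hw I), ?_⟩
  have h1 : ∀ᶠ z in 𝓝 x, ∀ I, a I (e z) = g i (e z) * w I z := Filter.eventually_all.2 hwe
  filter_upwards [ha.2, (tendsto_symm_at h).eventually h1,
    e.open_target.mem_nhds (e.map_source h.2)] with v h2 h3 hvt hgv I
  have h4 := h3 I
  rw [e.right_inv hvt] at h4
  have h5 := h2 hgv I
  rw [h4] at h5
  have h6 : ∏ k, g k v ^ K k = g i v * ∏ k, g k v ^ Function.update K i (K i - 1) k := by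
    rw [← Finset.mul_prod_erase Finset.univ _ (Finset.mem_univ i),
      ← Finset.mul_prod_erase Finset.univ (fun k => g k v ^ Function.update K i (K i - 1) k)
        (Finset.mem_univ i), Function.update_self, ← mul_assoc]
    congr 1
    · obtain ⟨k, hk⟩ := Nat.exists_eq_succ_of_ne_zero hi
      rw [hk, Nat.succ_sub_one, pow_succ]
      ring
    · refine Finset.prod_congr rfl fun k hk => ?_
      rw [Function.update_of_ne (Finset.ne_of_mem_erase hk)]
  rw [h6] at h5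
  refine mul_left_cancel₀ (hgv i) ?_
  rw [← h5]
  ring

end

/-- **Row B1**. -/
theorem exactPart : ExactPart := by
  classical
  intro n q M X _ _ _ _ Dv hDv hDp hEq K' τ₀ τ₁ hτ₀ hτ₁
  have hD : ∀ i, IsPrimeDivisor (Cm n) (Dv i) := fun i => hDp i
  -- a minimal `K`
  set 𝒦 : Set (Fin M → ℕ) := {K | K ≤ K' ∧ IsTenK Dv K τ₀ ∧ IsTenK Dv K τ₁} with h𝒦
  have hne : ∃ N : ℕ, ∃ K ∈ 𝒦, ∑ i, K i = N := ⟨_, K', ⟨le_rfl, hτ₀, hτ₁⟩, rfl⟩
  obtain ⟨K, ⟨hKK', hK₀, hK₁⟩, hKN⟩ := Nat.find_spec hne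
  refine ⟨K, hKK', hK₀, hK₁, fun i hi e x h hx g a₀ a₁ hg ha₀ ha₁ hcon => ?_⟩
  -- the set where the numerators vanish
  set A : Set X := {y | ∀ e g a₀ a₁, At e y → IsEqs Dv e y g → IsNum K τ₀ e y g a₀ →
    IsNum K τ₁ e y g a₁ → (∀ I, a₀ I (e y) = 0) ∧ ∀ I, a₁ I (e y) = 0} with hA
  have hAiff : ∀ (e : Chart n X) (y : X) g a₀ a₁, At e y → IsEqs Dv e y g →
      IsNum K τ₀ e y g a₀ → IsNum K τ₁ e y g a₁ →
      (y ∈ A ↔ (∀ I, a₀ I (e y) = 0) ∧ ∀ I, a₁ I (e y) = 0) := by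
    intro e y g a₀ a₁ h1 h2 h3 h4
    constructor
    · intro hy
      exact hy e g a₀ a₁ h1 h2 h3 h4
    · rintro ⟨h5, h6⟩ e' g' a₀' a₁' h1' h2' h3' h4'
      exact ⟨num_indep hD hK₀ h1' h1 h2' h2 h3' h3 h5, num_indep hD hK₁ h1' h1 h2' h2 h4' h4 h6⟩
  have hDA : Dv i ⊆ A := by
    by_contra hnot
    rw [not_subset] at hnot
    have hd := dense_in_prime (W := ((Fin q → Fin n) → ℂ) × ((Fin q → Fin n) → ℂ)) (A := A)
      (hD i) (fun y _ => ?_) hnot
    · have h1 := mem_closure_iff_frequently.1 (hd hx)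
      obtain ⟨y, ⟨hyD, hyA⟩, hy1, hy2, hy3, hy4, hy5⟩ := (h1.and_eventually
        (hcon.and ((at_ev h).and ((IsEqs.ev h hg).and ((IsNum.ev h ha₀).and
          (IsNum.ev h ha₁)))))).exists
      exact hyA ((hAiff e y g a₀ a₁ hy2 hy3 hy4 hy5).2 (hy1 hyD))
    · have hAt : At (chartAt (Cm n) y) y := ⟨chart_mem_atlas _ _, mem_chart_source _ _⟩
      obtain ⟨g', hg'⟩ := hEq _ y hAt
      obtain ⟨b₀, hb₀⟩ := hK₀.num _ y hAt g' hg'
      obtain ⟨b₁, hb₁⟩ := hK₁.num _ y hAt g' hg'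
      refine ⟨fun z => (fun I => b₀ I (chartAt (Cm n) y z), fun I => b₁ I (chartAt (Cm n) y z)),
        ?_, ?_⟩
      · refine HolV.prodMk (HolV.piF fun I => ?_) (HolV.piF fun I => ?_)
        · exact HolV.comp_contDiff (G := b₀ I) (hb₀.1 I).contDiffAt (holV_at hAt)
        · exact HolV.comp_contDiff (G := b₁ I) (hb₁.1 I).contDiffAt (holV_at hAt)
      · filter_upwards [at_ev hAt, IsEqs.ev hAt hg', IsNum.ev hAt hb₀, IsNum.ev hAt hb₁] with
          z h1 h2 h3 h4 _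
        rw [hAiff _ z g' b₀ b₁ h1 h2 h3 h4, Prod.ext_iff, funext_iff, funext_iff]
        rfl
  have hv₀ : ∀ e x g a, At e x → IsEqs Dv e x g → IsNum K τ₀ e x g a →
      ∀ᶠ y in 𝓝 x, y ∈ Dv i → ∀ I, a I (e y) = 0 := by
    intro e x g a h1 h2 h3
    obtain ⟨b, hb⟩ := hK₁.num e x h1 g h2
    filter_upwards [at_ev h1, IsEqs.ev h1 h2, IsNum.ev h1 h3, IsNum.ev h1 hb] with
      y h4 h5 h6 h7 hy
    exact ((hAiff e y g a b h4 h5 h6 h7).1 (hDA hy)).1
  have hv₁ : ∀ e x g a, At e x → IsEqs Dv e x g → IsNum K τ₁ e x g a →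
      ∀ᶠ y in 𝓝 x, y ∈ Dv i → ∀ I, a I (e y) = 0 := by
    intro e x g a h1 h2 h3
    obtain ⟨b, hb⟩ := hK₀.num e x h1 g h2
    filter_upwards [at_ev h1, IsEqs.ev h1 h2, IsNum.ev h1 h3, IsNum.ev h1 hb] with
      y h4 h5 h6 h7 hy
    exact ((hAiff e y g b a h4 h5 h7 h6).1 (hDA hy)).2
  have hL₀ := lower hK₀ hi hv₀
  have hL₁ := lower hK₁ hi hv₁
  have hle : Function.update K i (K i - 1) ≤ K := by
    intro k
    by_cases hk : k = i
    · subst hk
      rw [Function.update_self]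
      exact Nat.sub_le _ _
    · rw [Function.update_of_ne hk]
  have hlt : ∑ k, Function.update K i (K i - 1) k < ∑ k, K k := by
    refine Finset.sum_lt_sum (fun k _ => hle k) ⟨i, Finset.mem_univ i, ?_⟩
    rw [Function.update_self]
    omega
  refine Nat.find_min hne (m := ∑ k, Function.update K i (K i - 1) k) ?_
    ⟨_, ⟨hle.trans hKK', hL₀, hL₁⟩, rfl⟩
  rw [← hKN]
  exact hlt

end Vale.Agent.P281.H787.KD
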