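import Vale.Agent.P281.H787.TB
import Vale.Agent.P281.H713.SA.G3
import Vale.Agent.P281.ISO.Factor
import Vale.Agent.P281.H498.KD.Lin

/-! P281, theorem KD, block TK: the key divisibility (Cramer's relations hold along the divisors
of the boundary which lie over `𝒢`). -/

open scoped Manifold ContDiff Topology ComplexOrder
open Set Filter Metric Vale.Agent.P272.K

noncomputable section

namespace Vale.Agent.P281.H787.KD

open Vale.Agent.P281 Vale.Agent.P281.MF Vale.Agent.P281.ISO Vale.Agent.P281.H713.SA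
open Vale.Agent.P281.H498 (cram cram_tq KeyPart)

set_option linter.unusedSectionVars false

section

variable {n p : ℕ} {X Z Y : Type} [TopologicalSpace X] [ChartedSpace (Cm n) X]
  [IsManifold 𝓘(ℂ, Cm n) ω X] [TopologicalSpace Z] [ChartedSpace (Cm n) Z]
  [IsManifold 𝓘(ℂ, Cm n) ω Z] [TopologicalSpace Y] [ChartedSpace (Cm p) Y]
  [IsManifold 𝓘(ℂ, Cm p) ω Y]

/-- the points of `j(Z)` are dense in every prime divisor -/
theorem dense_range_prime {j : Z → X}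
    (hthin : ∀ x, ∃ h : X → ℂ, HolV (Cm n) h x ∧ (¬ ∀ᶠ z in 𝓝 x, h z = 0) ∧
      ∀ᶠ z in 𝓝 x, (z ∉ range j → h z = 0) ∧ (h z = 0 → z ∈ closure {z | h z = 0 ∧ z ∈ range j}))
    {D : Set X} {e : X → ℂ} {x : X} (he : IsLocalEq (Cm n) D e x) (hx : x ∈ D) :
    ∃ᶠ y in 𝓝 x, y ∈ D ∧ y ∈ range j := by
  obtain ⟨h, hh, hne, hev⟩ := hthin x
  intro hcon
  -- then `D` is contained in the complement of the range, near `x`
  obtain ⟨κ, w, hw, hwe, hwf⟩ := factor hx he hh hne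
  have h1 : ∀ᶠ y in 𝓝 x, y ∈ D → h y = 0 := by
    filter_upwards [hcon, hev] with y hy hy' hyD
    exact hy'.1 fun hr => hy ⟨hyD, hr⟩
  have hev2 := hwe.and (h1.and (he.eventually.and (hev.and ((HolV.eventually (E := Cm n) hw).and
    hcon))))
  obtain ⟨y, ⟨hyD, hwy⟩, hy⟩ := (hwf.and_eventually (eventually_eventually_nhds.2 hev2)).exists
  have hy0 := hy.self_of_nhds
  have hhy : h y = 0 := hy0.2.1 hyD
  have hcl := mem_closure_iff_frequently.1 (hy0.2.2.2.1.2 hhy)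
  have hκ : κ ≠ 0 := by
    intro h0
    have := hy0.1
    rw [hhy, h0, pow_zero, one_mul] at this
    exact hwy this.symm
  have hwc : ∀ᶠ z in 𝓝 y, w z ≠ 0 := hy0.2.2.2.2.1.continuousAt.eventually_ne hwy
  obtain ⟨z, ⟨hz0, hzr⟩, hz, hwz⟩ := (hcl.and_eventually (hy.and hwc)).exists
  refine hz.2.2.2.2.2 ⟨?_, hzr⟩
  rw [hz.2.2.1.mem_iff]
  have h2 := hz.1
  rw [hz0] at h2
  rcases mul_eq_zero.1 h2.symm with h3 | h3
  · exact pow_eq_zero_iff hκ |>.1 h3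
  · exact absurd h3 hwz

/-- the differential of `g ∘ f` in the coordinates `e` of `X` is in the row span of `df` -/
theorem cov_eq {j : Z → X} (hj : ∀ z, HolM (Cm n) (Cm n) j z)
    (hj₂ : ∀ z, Function.Injective (dM (Cm n) (Cm n) j z)) {f : Z → Y} {z : Z}
    (hf : HolM (Cm n) (Cm p) f z) {e : Chart n X} (h : At e (j z)) {g : Y → ℂ}
    (hg : HolV (Cm p) g (f z)) {Hc : Cm n → ℂ} (hH : AnalyticAt ℂ Hc (e (j z)))
    (hev : ∀ᶠ z' in 𝓝 z, Hc (e (j z')) = g (f z')) (v : Cm n) :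
    fderiv ℂ Hc (e (j z)) v = dV (Cm p) g (f z) (((dM (Cm n) (Cm p) f z).comp
      (Ring.inverse (dV (Cm n) (fun z => e (j z)) z))) v) := by
  set c : Z → Cm n := fun z => e (j z) with hc
  have hcu := isUnit_ej hj hj₂ h
  have h1 : dV (Cm n) (fun z' => Hc (c z')) z = (fderiv ℂ Hc (c z)).comp (dV (Cm n) c z) :=
    dV_comp_contDiff hH.contDiffAt (holV_ej hj h)
  have h2 : dV (Cm n) (fun z' => g (f z')) z =
      (dV (Cm p) g (f z)).comp (dM (Cm n) (Cm p) f z) := dV_comp hg hf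
  have h3 : dV (Cm n) (fun z' => Hc (c z')) z = dV (Cm n) (fun z' => g (f z')) z := by
    unfold dV
    exact Filter.EventuallyEq.mfderiv_eq hev
  have h4 : (dV (Cm n) c z) * (Ring.inverse (dV (Cm n) c z)) = 1 := Ring.mul_inverse_cancel _ hcu
  have h5 : dV (Cm n) c z (Ring.inverse (dV (Cm n) c z) v) = v :=
    congrArg (fun T : Cm n →L[ℂ] Cm n => T v) h4
  rw [h1, h2] at h3
  have h6 := congrArg (fun T : Cm n →L[ℂ] ℂ => T (Ring.inverse (dV (Cm n) c z) v)) h3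
  simp only [ContinuousLinearMap.comp_apply] at h6
  rw [h5] at h6
  exact h6

end

theorem cram_smul {n p μ : ℕ} (a : (Fin (μ * p) → Fin n) → ℂ) (ρ : Fin n → ℂ)
    (I : Fin (μ * p) → Fin n) (s : Fin μ) (k : Fin n) (t : ℂ) :
    cram a (fun k => t * ρ k) I s k = t * cram a ρ I s k := by
  unfold cram
  rw [mul_sub, Finset.mul_sum]
  congr 1
  · ring
  · exact Finset.sum_congr rfl fun c _ => by ring

theorem cram_smul' {n p μ : ℕ} (a : (Fin (μ * p) → Fin n) → ℂ) (ρ : Fin n → ℂ)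
    (I : Fin (μ * p) → Fin n) (s : Fin μ) (k : Fin n) (t : ℂ) :
    cram (fun I => t * a I) ρ I s k = t * cram a ρ I s k := by
  unfold cram
  rw [mul_sub, Finset.mul_sum]
  congr 1
  · ring
  · exact Finset.sum_congr rfl fun c _ => by ring

theorem cram_congr {n p μ : ℕ} (a : (Fin (μ * p) → Fin n) → ℂ) {ρ ρ' : Fin n → ℂ}
    (h : ∀ k, ρ k = ρ' k) (I : Fin (μ * p) → Fin n) (s : Fin μ) (k : Fin n) :
    cram a ρ I s k = cram a ρ' I s k := by
  rw [show ρ = ρ' from funext h]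

section Key

variable {n p : ℕ} {X Z Y : Type} [TopologicalSpace X] [ChartedSpace (Cm n) X]
  [IsManifold 𝓘(ℂ, Cm n) ω X] [TopologicalSpace Z] [ChartedSpace (Cm n) Z]
  [IsManifold 𝓘(ℂ, Cm n) ω Z] [TopologicalSpace Y] [ChartedSpace (Cm p) Y]
  [IsManifold 𝓘(ℂ, Cm p) ω Y]

theorem analytic_cram {n p μ : ℕ} {v₀ : Cm n} {a : (Fin (μ * p) → Fin n) → Cm n → ℂ}
    (ha : ∀ I, AnalyticAt ℂ (a I) v₀) {ρ : Fin n → Cm n → ℂ} (hρ : ∀ k, AnalyticAt ℂ (ρ k) v₀)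
    (I : Fin (μ * p) → Fin n) (s : Fin μ) (k : Fin n) :
    AnalyticAt ℂ (fun v => cram (fun I => a I v) (fun k => ρ k v) I s k) v₀ := by
  unfold cram
  refine ((ha _).mul (hρ _)).sub ?_
  exact Finset.analyticAt_fun_sum _ fun c _ => (ha _).mul (hρ _)

theorem cont_cram {n p μ : ℕ} {v₀ : Cm n} {a : (Fin (μ * p) → Fin n) → Cm n → ℂ}
    (ha : ∀ I, ContinuousAt (a I) v₀) {ρ : Fin n → Cm n → ℂ} (hρ : ∀ k, ContinuousAt (ρ k) v₀)
    (I : Fin (μ * p) → Fin n) (s : Fin μ) (k : Fin n) :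
    ContinuousAt (fun v => cram (fun I => a I v) (fun k => ρ k v) I s k) v₀ := by
  unfold cram
  refine ((ha _).mul (hρ _)).sub ?_
  exact tendsto_finsetSum _ fun c _ => (ha _).mul (hρ _)

/-- the product rule for `g ^ κ * W` -/
theorem fderiv_pow_mul {g W : Cm n → ℂ} {v : Cm n} (hg : AnalyticAt ℂ g v)
    (hW : AnalyticAt ℂ W v) {κ : ℕ} (hκ : κ ≠ 0) (ξ : Cm n) :
    fderiv ℂ (fun v => g v ^ κ * W v) v ξ =
      g v ^ (κ - 1) * (κ * W v * fderiv ℂ g v ξ + g v * fderiv ℂ W v ξ) := by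
  have h1 := hg.differentiableAt.hasFDerivAt
  have h2 := hW.differentiableAt.hasFDerivAt
  have h3 : HasFDerivAt (fun v => g v ^ κ) ((κ • g v ^ (κ - 1)) • fderiv ℂ g v) v := h1.pow κ
  have h4 := (h3.mul h2).fderiv
  rw [show (fun v => g v ^ κ * W v) = (fun v => g v ^ κ) * W from rfl, h4]
  obtain ⟨κ', rfl⟩ := Nat.exists_eq_succ_of_ne_zero hκ
  simp only [add_apply, smul_apply, smul_eq_mul, Nat.succ_sub_one, nsmul_eq_mul]
  rw [Nat.succ_eq_add_one, pow_succ]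
  ring

theorem tendsto_symm_at {e : Chart n X} {x : X} (h : At e x) :
    Tendsto e.symm (𝓝 (e x)) (𝓝 x) := by
  have := (e.continuousAt_symm (e.map_source h.2)).tendsto
  rwa [e.left_inv h.2] at this

/-- at the points of `D ∩ j(Z)` where `gS ∘ f = g ^ κ w`, `w ≠ 0` -/
theorem cram_point {μ : ℕ} {j : Z → X} (hj : ∀ z, HolM (Cm n) (Cm n) j z)
    (hj₁ : Topology.IsOpenEmbedding j) (hj₂ : ∀ z, Function.Injective (dM (Cm n) (Cm n) j z))
    {f : Z → Y} (hf : ∀ z, HolM (Cm n) (Cm p) f z) {Ω : Set X} (hΩ : Dense Ω)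
    {z₀ : Z} {e : Chart n X} (h : At e (j z₀)) {g : Cm n → ℂ}
    (hg : AnalyticAt ℂ g (e (j z₀))) (hg0 : g (e (j z₀)) = 0)
    (hgΩ : ∀ᶠ y in 𝓝 (j z₀), y ∈ Ω → g (e y) ≠ 0)
    {gS : Y → ℂ} (hgS : HolV (Cm p) gS (f z₀)) {κ : ℕ} (hκ : κ ≠ 0) {w : X → ℂ}
    (hw : HolV (Cm n) w (j z₀)) (hw0 : w (j z₀) ≠ 0)
    (hfac : ∀ᶠ z in 𝓝 z₀, gS (f z) = g (e (j z)) ^ κ * w (j z))
    {a : (Fin (μ * p) → Fin n) → Cm n → ℂ} (ha : ∀ I, AnalyticAt ℂ (a I) (e (j z₀)))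
    (hc : ∀ᶠ z in 𝓝 z₀, j z ∈ Ω → ∃ c : ℂ, ∀ I,
      a I (e (j z)) = c * tT f μ (fun z => e (j z)) I z)
    (hcram : ∀ (A : Cm n →L[ℂ] Cm p) (lam : Cm p →L[ℂ] ℂ) (I : Fin (μ * p) → Fin n) (s : Fin μ)
      (k : Fin n), cram (tq μ A) (fun k => lam (A (Pi.single k 1))) I s k = 0)
    (I : Fin (μ * p) → Fin n) (s : Fin μ) (k : Fin n) :
    cram (fun I => a I (e (j z₀))) (fun k => fderiv ℂ g (e (j z₀)) (Pi.single k 1)) I s k = 0 := by
  set W : Cm n → ℂ := fun v => w (e.symm v) with hW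
  have hWa : AnalyticAt ℂ W (e (j z₀)) := analyticAt_symm h hw
  have hWe : W (e (j z₀)) = w (j z₀) := by simp only [hW, e.left_inv h.2]
  -- the function `Φ`
  set ρ : Fin n → Cm n → ℂ := fun k v => κ * W v * fderiv ℂ g v (Pi.single k 1) +
    g v * fderiv ℂ W v (Pi.single k 1) with hρ
  have hρc : ∀ k, ContinuousAt (ρ k) (e (j z₀)) := by
    intro k
    have h1 : AnalyticAt ℂ (fun v => fderiv ℂ g v (Pi.single k 1)) (e (j z₀)) :=
      (ContinuousLinearMap.apply ℂ ℂ (Pi.single k (1 : ℂ) : Cm n)).analyticAt _ |>.comp hg.fderiv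
    have h2 : AnalyticAt ℂ (fun v => fderiv ℂ W v (Pi.single k 1)) (e (j z₀)) :=
      (ContinuousLinearMap.apply ℂ ℂ (Pi.single k (1 : ℂ) : Cm n)).analyticAt _ |>.comp hWa.fderiv
    exact ((((continuousAt_const).mul hWa.continuousAt).mul h1.continuousAt).add
      (hg.continuousAt.mul h2.continuousAt))
  have hec : ContinuousAt (e : X → Cm n) (j z₀) := e.continuousAt h.2
  have hΦc : ContinuousAt (fun y => cram (fun I => a I (e y)) (fun k => ρ k (e y)) I s k)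
      (j z₀) :=
    (cont_cram (fun I => (ha I).continuousAt) hρc I s k).comp (f := (e : X → Cm n)) hec
  have hΦ0 : cram (fun I => a I (e (j z₀))) (fun k => ρ k (e (j z₀))) I s k = 0 := by
    refine eq_of_dense (x := j z₀)
      (g := fun y => cram (fun I => a I (e y)) (fun k => ρ k (e y)) I s k) (h := fun _ => 0) hΩ
      hΦc continuousAt_const ?_
    rw [← hj₁.map_nhds_eq z₀, eventually_map]
    have hjc : ContinuousAt j z₀ := (hj z₀).continuousAt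
    have h2 : ∀ᶠ z in 𝓝 z₀, AnalyticAt ℂ g (e (j z)) :=
      (hec.tendsto.comp hjc).eventually hg.eventually_analyticAt
    have h3 : ∀ᶠ z in 𝓝 z₀, AnalyticAt ℂ W (e (j z)) :=
      (hec.tendsto.comp hjc).eventually hWa.eventually_analyticAt
    have h4 : ∀ᶠ z in 𝓝 z₀, HolV (Cm p) gS (f z) :=
      (hf z₀).continuousAt.eventually (HolV.eventually (E := Cm p) hgS)
    have h5 : ∀ᶠ z in 𝓝 z₀, At e (j z) := by
      filter_upwards [hjc.eventually (e.open_source.mem_nhds h.2)] with z hz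
      exact ⟨h.1, hz⟩
    filter_upwards [h2, h3, h4, h5, hfac.eventually_nhds, hc, hjc.eventually hgΩ] with
      z h2 h3 h4 h5 h6 h7 h8 hz
    have hg1 : g (e (j z)) ≠ 0 := h8 hz
    obtain ⟨c, hcI⟩ := h7 hz
    have h9 : ∀ k, fderiv ℂ (fun v => g v ^ κ * W v) (e (j z)) (Pi.single k 1) =
        dV (Cm p) gS (f z) (((dM (Cm n) (Cm p) f z).comp
          (Ring.inverse (dV (Cm n) (fun z => e (j z)) z))) (Pi.single k 1)) := fun k =>
      cov_eq hj hj₂ (hf z) h5 h4 ((h2.pow κ).mul h3) (by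
        filter_upwards [h6, (hj z).continuousAt.eventually (e.open_source.mem_nhds h5.2)] with
          z' hz' hz''
        show g (e (j z')) ^ κ * w (e.symm (e (j z'))) = gS (f z')
        rw [e.left_inv hz'']
        exact hz'.symm) (Pi.single k 1)
    have h10 := hcram ((dM (Cm n) (Cm p) f z).comp
      (Ring.inverse (dV (Cm n) (fun z => e (j z)) z))) (dV (Cm p) gS (f z)) I s k
    have h11 : cram (fun I => a I (e (j z)))
        (fun k => fderiv ℂ (fun v => g v ^ κ * W v) (e (j z)) (Pi.single k 1)) I s k = 0 := by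
      rw [cram_congr _ h9]
      have h12 : (fun I => a I (e (j z))) = fun I => c * tq μ ((dM (Cm n) (Cm p) f z).comp
          (Ring.inverse (dV (Cm n) (fun z => e (j z)) z))) I := by
        funext I
        exact hcI I
      rw [h12, cram_smul', h10, mul_zero]
    rw [cram_congr _ fun k => fderiv_pow_mul h2 h3 hκ (Pi.single k 1), cram_smul] at h11
    rcases mul_eq_zero.1 h11 with h12 | h12
    · exact absurd h12 (pow_ne_zero _ hg1)
    · exact h12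
  have h13 : ∀ k, ρ k (e (j z₀)) = κ * W (e (j z₀)) * fderiv ℂ g (e (j z₀)) (Pi.single k 1) := by
    intro k
    simp only [hρ, hg0, zero_mul, add_zero]
  rw [cram_congr _ h13, cram_smul] at hΦ0
  rcases mul_eq_zero.1 hΦ0 with h14 | h14
  · exfalso
    rw [hWe] at h14
    rcases mul_eq_zero.1 h14 with h15 | h15
    · exact hκ (by exact_mod_cast h15)
    · exact hw0 h15
  · exact h14

/-- **Cramer's relations along `D`**, a divisor over `S`. -/
theorem key_div {μ : ℕ} {j : Z → X} (hj : ∀ z, HolM (Cm n) (Cm n) j z)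
    (hj₁ : Topology.IsOpenEmbedding j) (hj₂ : ∀ z, Function.Injective (dM (Cm n) (Cm n) j z))
    (hthin : ∀ x, ∃ h : X → ℂ, HolV (Cm n) h x ∧ (¬ ∀ᶠ z in 𝓝 x, h z = 0) ∧
      ∀ᶠ z in 𝓝 x, (z ∉ range j → h z = 0) ∧ (h z = 0 → z ∈ closure {z | h z = 0 ∧ z ∈ range j}))
    {f : Z → Y} (hf : ∀ z, HolM (Cm n) (Cm p) f z) {S : Set Y}
    (hS : ∀ y, ∃ g : Y → ℂ, HolV (Cm p) g y ∧ ∀ᶠ y' in 𝓝 y, y' ∈ S ↔ g y' = 0)
    {Ω : Set X} (hΩ : Dense Ω) (hΩS : ∀ y ∈ Ω, ∃ z, j z = y ∧ f z ∉ S)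
    {D : Set X} (hDS : ∀ z, j z ∈ D → f z ∈ S) {x : X} {e : Chart n X} (h : At e x)
    {g : Cm n → ℂ} (hg : AnalyticAt ℂ g (e x)) (hgD : IsLocalEq (Cm n) D (fun y => g (e y)) x)
    {a : (Fin (μ * p) → Fin n) → Cm n → ℂ} (ha : ∀ I, AnalyticAt ℂ (a I) (e x))
    (hc : ∀ᶠ y in 𝓝 x, ∀ z, j z = y → y ∈ Ω → ∃ c : ℂ, ∀ I,
      a I (e (j z)) = c * tT f μ (fun z => e (j z)) I z)
    (hcram : ∀ (A : Cm n →L[ℂ] Cm p) (lam : Cm p →L[ℂ] ℂ) (I : Fin (μ * p) → Fin n) (s : Fin μ)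
      (k : Fin n), cram (tq μ A) (fun k => lam (A (Pi.single k 1))) I s k = 0)
    (I : Fin (μ * p) → Fin n) (s : Fin μ) (k : Fin n) :
    ∃ u : Cm n → ℂ, AnalyticAt ℂ u (e x) ∧ ∀ᶠ v in 𝓝 (e x),
      cram (fun I => a I v) (fun k => fderiv ℂ g v (Pi.single k 1)) I s k = g v * u v := by
  classical
  set F : Cm n → ℂ := fun v =>
    cram (fun I => a I v) (fun k => fderiv ℂ g v (Pi.single k 1)) I s k with hF
  have hFa : ∀ v, AnalyticAt ℂ g v → (∀ I, AnalyticAt ℂ (a I) v) → AnalyticAt ℂ F v := by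
    intro v h1 h2
    refine analytic_cram h2 (fun k => ?_) I s k
    exact (ContinuousLinearMap.apply ℂ ℂ (Pi.single k (1 : ℂ) : Cm n)).analyticAt _ |>.comp
      h1.fderiv
  set P : X → Prop := fun y => At e y ∧ AnalyticAt ℂ g (e y) ∧
    IsLocalEq (Cm n) D (fun y => g (e y)) y ∧ (∀ I, AnalyticAt ℂ (a I) (e y)) ∧
    (∀ z, j z = y → y ∈ Ω → ∃ c : ℂ, ∀ I, a I (e (j z)) = c * tT f μ (fun z => e (j z)) I z) with hP
  have hec : ∀ y, At e y → ContinuousAt (e : X → Cm n) y := fun y hy => e.continuousAt hy.2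
  have hPx : ∀ᶠ y in 𝓝 x, P y := by
    have h1 : ∀ᶠ y in 𝓝 x, At e y := by
      filter_upwards [e.open_source.mem_nhds h.2] with y hy using ⟨h.1, hy⟩
    have h2 : ∀ᶠ y in 𝓝 x, AnalyticAt ℂ g (e y) := (hec x h).eventually hg.eventually_analyticAt
    have h3 : ∀ᶠ y in 𝓝 x, ∀ I, AnalyticAt ℂ (a I) (e y) :=
      (hec x h).eventually (Filter.eventually_all.2 fun I => (ha I).eventually_analyticAt)
    filter_upwards [h1, h2, hgD.eventually, h3, hc] with y h1 h2 h4 h3 h5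
    exact ⟨h1, h2, h4, h3, h5⟩
  have hmain : ∀ᶠ y in 𝓝 x, y ∈ D → F (e y) = 0 := by
    filter_upwards [hPx.eventually_nhds] with y hy hyD
    by_contra hcon
    have hy0 := hy.self_of_nhds
    have hFc : ∀ y', P y' → ContinuousAt (fun y => F (e y)) y' := fun y' hy' =>
      ContinuousAt.comp (f := (e : X → Cm n)) (hFa _ hy'.2.1 hy'.2.2.2.1).continuousAt
        (hec y' hy'.1)
    have hne1 : ∀ᶠ y' in 𝓝 y, F (e y') ≠ 0 := (hFc y hy0).eventually_ne hcon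
    obtain ⟨y', ⟨hy'D, z₁, rfl⟩, hy'⟩ := ((dense_range_prime hthin hy0.2.2.1 hyD).and_eventually
      (eventually_eventually_nhds.2 (hy.and hne1))).exists
    have hy'0 := hy'.self_of_nhds
    obtain ⟨gS, hgS, hgSe⟩ := hS (f z₁)
    have hfc : ∀ z, ContinuousAt f z := fun z => (hf z).continuousAt
    set H : X → ℂ := fun x => if hx : x ∈ range j then gS (f hx.choose) else 0 with hH
    have hHj : ∀ z, H (j z) = gS (f z) := by
      intro z
      have h1 : j z ∈ range j := mem_range_self z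
      have h2 : h1.choose = z := hj₁.injective h1.choose_spec
      simp only [hH]
      rw [dif_pos h1, h2]
    have hHh : HolV (Cm n) H (j z₁) := by
      refine holV_of_comp (hj z₁) (hj₂ z₁) ?_
      simp only [hHj]
      exact HolV.comp hgS (hf z₁)
    have hgSz : ∀ᶠ z in 𝓝 z₁, (f z ∈ S ↔ gS (f z) = 0) := (hfc z₁).eventually hgSe
    have hHne : ¬ ∀ᶠ y in 𝓝 (j z₁), H y = 0 := by
      intro hcon
      have h1 : ∃ᶠ y in 𝓝 (j z₁), y ∈ Ω := mem_closure_iff_frequently.1 (hΩ (j z₁))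
      have h2 : ∀ᶠ y in 𝓝 (j z₁), ∀ z, j z = y → (f z ∈ S ↔ gS (f z) = 0) := by
        rw [← hj₁.map_nhds_eq z₁, eventually_map]
        filter_upwards [hgSz] with z hz z' hz'
        rw [hj₁.injective hz']
        exact hz
      obtain ⟨y, hyΩ, hy1, hy2⟩ := (h1.and_eventually (hcon.and h2)).exists
      obtain ⟨z, rfl, hz⟩ := hΩS y hyΩ
      rw [hHj] at hy1
      exact hz ((hy2 z rfl).2 hy1)
    obtain ⟨κ, w, hw, hwe, hwf⟩ := factor hy'D hy'0.1.2.2.1 hHh hHne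
    have hr : ∀ᶠ y in 𝓝 (j z₁), y ∈ range j := hj₁.isOpen_range.mem_nhds (mem_range_self z₁)
    have h2 : ∀ᶠ y in 𝓝 (j z₁), ∀ z, j z = y → (f z ∈ S ↔ gS (f z) = 0) ∧
        HolV (Cm p) gS (f z) := by
      rw [← hj₁.map_nhds_eq z₁, eventually_map]
      filter_upwards [hgSz, (hfc z₁).eventually (HolV.eventually (E := Cm p) hgS)] with
        z hz hz2 z' hz'
      rw [hj₁.injective hz']
      exact ⟨hz, hz2⟩
    obtain ⟨y₂, ⟨hy₂D, hwy₂⟩, hy₂⟩ := (hwf.and_eventually (eventually_eventually_nhds.2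
      (hy'.and (hr.and (h2.and (hwe.and (HolV.eventually (E := Cm n) hw))))))).exists
    have hy₂0 := hy₂.self_of_nhds
    obtain ⟨z₂, rfl⟩ := hy₂0.2.1
    have hP₂ : P (j z₂) := hy₂0.1.1
    have hS₂ := hy₂0.2.2.1 z₂ rfl
    have hg₂ : g (e (j z₂)) = 0 := hP₂.2.2.1.mem_iff.1 hy₂D
    have hκ : κ ≠ 0 := by
      intro h0
      have h3 := hy₂0.2.2.2.1
      rw [hHj, hS₂.1.1 (hDS z₂ hy₂D), h0, pow_zero, one_mul] at h3
      exact hwy₂ h3.symm
    refine hy₂0.1.2 (cram_point hj hj₁ hj₂ hf hΩ hP₂.1 hP₂.2.1 hg₂ ?_ hS₂.2 hκ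
      hy₂0.2.2.2.2 hwy₂ ?_ hP₂.2.2.2.1 ?_ hcram I s k)
    · filter_upwards [hP₂.2.2.1.eventually] with y hy hyΩ hg0
      obtain ⟨z, rfl, hz⟩ := hΩS y hyΩ
      exact hz (hDS z (hy.mem_iff.2 hg0))
    · have h3 : ∀ᶠ y in 𝓝 (j z₂), H y = g (e y) ^ κ * w y := hy₂.mono fun y hy => hy.2.2.2.1
      have h4 := (hj z₂).continuousAt.eventually h3
      filter_upwards [h4] with z hz
      rw [← hHj]
      exact hz
    · have h3 : ∀ᶠ y in 𝓝 (j z₂), P y := hy₂.mono fun y hy => hy.1.1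
      filter_upwards [(hj z₂).continuousAt.eventually h3] with z hz hzΩ
      exact hz.2.2.2.2 z rfl hzΩ
  have hFh : HolV (Cm n) (fun y => F (e y)) x :=
    HolV.comp_contDiff (G := F) (hFa _ hg ha).contDiffAt (holV_at h)
  obtain ⟨w, hw, hwe⟩ := van_div hgD hFh hmain
  refine ⟨fun v => w (e.symm v), analyticAt_symm h hw, ?_⟩
  filter_upwards [(tendsto_symm_at h).eventually hwe, e.open_target.mem_nhds (e.map_source h.2)]
    with v hv hvt
  simp only [e.right_inv hvt] at hv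
  exact hv

end Key

/-- **Row B2**. -/
theorem keyPart : KeyPart := by
  classical
  intro n p μ X Z Y _ _ _ _ _ _ _ _ _ _ _ _ j hj f hf 𝒢 h𝒢 D hD hD' hDS B hB hBd e x h g hg hgD
    a ha hc I s k
  have hΩ₀ := dense_good hj hf h𝒢
  obtain ⟨hj0, hj₁, hj₂, hthinj⟩ := hj
  have hfh : ∀ z, HolM (Cm n) (Cm p) f z := fun z => hf z
  have hjh : ∀ z, HolM (Cm n) (Cm n) j z := fun z => hj0 z
  have hS : ∀ y : Y, ∃ g : Y → ℂ, HolV (Cm p) g y ∧ ∀ᶠ y' in 𝓝 y, y' ∈ ⋃₀ 𝒢 ↔ g y' = 0 := by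
    intro y
    obtain ⟨h𝒢fin, h𝒢pr, -⟩ := h𝒢
    have hch : ∀ G, ∃ g : Y → ℂ, G ∈ h𝒢fin.toFinset → IsLocalEq (Cm p) G g y := by
      intro G
      by_cases hG : G ∈ h𝒢fin.toFinset
      · obtain ⟨g, hg⟩ := (h𝒢pr G (h𝒢fin.mem_toFinset.1 hG)).2.1 y
        exact ⟨g, fun _ => hg⟩
      · exact ⟨0, fun h => absurd h hG⟩
    choose g hg using hch
    refine ⟨fun y => ∏ G ∈ h𝒢fin.toFinset, g G y, HolV.prod fun G hG => (hg G hG).holAt, ?_⟩
    have h1 : ∀ᶠ y' in 𝓝 y, ∀ G ∈ h𝒢fin.toFinset, IsLocalEq (Cm p) G (g G) y' := by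
      rw [Filter.eventually_all_finset]
      exact fun G hG => (hg G hG).eventually
    filter_upwards [h1] with y' hy'
    rw [Finset.prod_eq_zero_iff, mem_sUnion]
    constructor
    · rintro ⟨G, hG, hyG⟩
      have hG' := h𝒢fin.mem_toFinset.2 hG
      exact ⟨G, hG', (hy' G hG').mem_iff.1 hyG⟩
    · rintro ⟨G, hG, hyG⟩
      exact ⟨G, h𝒢fin.mem_toFinset.1 hG, (hy' G hG).mem_iff.2 hyG⟩
  set Ω : Set X := {x | ∃ z, j z = x ∧ f z ∉ ⋃₀ 𝒢} ∩ Bᶜ with hΩdef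
  have hΩ : Dense Ω := Dense.inter_of_isOpen_right hΩ₀ hBd hB.isOpen_compl
  exact key_div hjh hj₁ hj₂ hthinj hfh hS hΩ (fun y hy => hy.1) hDS h hg hgD ha (by
    filter_upwards [hc] with y hy z hz hyΩ
    obtain ⟨z', hz', hfz'⟩ := hyΩ.1
    have h1 : z' = z := hj₁.injective (hz'.trans hz.symm)
    obtain ⟨c, hcI⟩ := hy z hz (h1 ▸ hfz') hyΩ.2
    refine ⟨c, fun I => ?_⟩
    rw [hz]
    exact hcI I) (fun A lam I s k => cram_tq A lam I s k) I s k

end Vale.Agent.P281.H787.KD
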