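import Vale.Agent.P281.H787.KDE
import Vale.Agent.P299.H937.Boch

/-! P281, theorem KD, block TK: the norms. -/

open scoped Manifold ContDiff Topology ComplexOrder Matrix Kronecker
open Set Filter Metric Vale.Agent.P272.K

noncomputable section

namespace Vale.Agent.P281.H787.KD

open Vale.Agent.P281 Vale.Agent.P281.MF Vale.Agent.P281.ISO Vale.Agent.P281.H713.SA
open Vale.Agent.P281.H713.KD (IsBd IsHolNorm)
open Vale.Agent.P299.D (Ten tenPull FormM)
open Vale.Agent.P281.H498 (IsEqs IsWts IsNum IsTenK IsNorm NormPart nsq)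
open Vale.Agent.P299.H954 (tp tp_apply tp_mul tp_one tp_conjTranspose tp_posDef MC_tp MC_dual)
open Vale.Agent.P272.K.C2 (MC)

set_option linter.unusedSectionVars false

section lin

variable {n q : ℕ}

/-- the metric on tensors -/
def mt (q : ℕ) (w : Matrix (Fin n) (Fin n) ℂ) : Matrix (Fin q → Fin n) (Fin q → Fin n) ℂ :=
  tp q (w⁻¹)ᵀ

/-- the row of the components -/
def rr (a : (Fin q → Fin n) → ℂ) : Matrix Unit (Fin q → Fin n) ℂ := Matrix.of fun _ I => a I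

theorem nsqC (w : Matrix (Fin n) (Fin n) ℂ) (a : (Fin q → Fin n) → ℂ) :
    ∑ I, ∑ J, a I * (starRingEnd ℂ) (a J) * ∏ t, w⁻¹ (J t) (I t) =
      (rr a * mt q w * (rr a)ᴴ) () () := by
  simp only [Matrix.mul_apply, rr, Matrix.of_apply, mt, tp_apply, Matrix.transpose_apply,
    Matrix.conjTranspose_apply, Finset.sum_mul]
  rw [Finset.sum_comm]
  refine Finset.sum_congr rfl fun I _ => Finset.sum_congr rfl fun J _ => ?_
  show _ = a J * _ * (starRingEnd ℂ) (a I)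
  ring

theorem nsq_eq (w : Matrix (Fin n) (Fin n) ℂ) (a : (Fin q → Fin n) → ℂ) :
    nsq w a = ((rr a * mt q w * (rr a)ᴴ) () ()).re := by
  unfold nsq
  rw [nsqC]

theorem mt_posDef {w : Matrix (Fin n) (Fin n) ℂ} (hw : w.PosDef) : (mt q w).PosDef :=
  tp_posDef q hw.inv.transpose

theorem nsq_nonneg {w : Matrix (Fin n) (Fin n) ℂ} (hw : w.PosDef) (a : (Fin q → Fin n) → ℂ) :
    0 ≤ nsq w a := by
  rw [nsq_eq]
  have h : 0 ≤ (rr a * mt q w * (rr a)ᴴ) () () :=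
    ((mt_posDef hw).posSemidef.mul_mul_conjTranspose_same _).diag_nonneg
  exact (Complex.le_def.1 h).1

theorem nsq_eq_zero_iff {w : Matrix (Fin n) (Fin n) ℂ} (hw : w.PosDef)
    (a : (Fin q → Fin n) → ℂ) : nsq w a = 0 ↔ ∀ I, a I = 0 := by
  constructor
  · intro h
    have h0 : 0 ≤ (rr a * mt q w * (rr a)ᴴ) () () :=
      ((mt_posDef hw).posSemidef.mul_mul_conjTranspose_same _).diag_nonneg
    have h1 : (rr a * mt q w * (rr a)ᴴ) () () = 0 := by
      rw [nsq_eq] at h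
      exact Complex.ext (by rw [h]; rfl) (Complex.le_def.1 h0).2.symm
    by_contra hne
    have h2 : star (rr a ()) ≠ 0 := by
      intro h3
      apply hne
      intro I
      have := congrFun h3 I
      simpa [rr] using this
    have h4 := (mt_posDef (q := q) hw).dotProduct_mulVec_pos h2
    have h5 : star (star (rr a ())) ⬝ᵥ (mt q w).mulVec (star (rr a ())) =
        (rr a * mt q w * (rr a)ᴴ) () () := by
      rw [star_star, Matrix.mul_assoc]
      rfl
    rw [h5, h1] at h4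
    exact lt_irrefl _ h4
  · intro h
    unfold nsq
    simp [h]

theorem nsq_smul (w : Matrix (Fin n) (Fin n) ℂ) (a : (Fin q → Fin n) → ℂ) (c : ℂ) :
    nsq w (fun I => a I * c) = ‖c‖ ^ 2 * nsq w a := by
  unfold nsq
  have h : ∑ I, ∑ J, a I * c * (starRingEnd ℂ) (a J * c) * ∏ t, w⁻¹ (J t) (I t) =
      ((‖c‖ ^ 2 : ℝ) : ℂ) * ∑ I, ∑ J, a I * (starRingEnd ℂ) (a J) * ∏ t, w⁻¹ (J t) (I t) := by
    rw [Finset.mul_sum]
    refine Finset.sum_congr rfl fun I _ => ?_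
    rw [Finset.mul_sum]
    refine Finset.sum_congr rfl fun J _ => ?_
    have h1 : c * (starRingEnd ℂ) c = ((‖c‖ ^ 2 : ℝ) : ℂ) := by
      rw [Complex.mul_conj, Complex.normSq_eq_norm_sq]
    rw [map_mul, ← h1]
    ring
  rw [h, Complex.re_ofReal_mul]

/-- change of charts -/
theorem nsq_change {w w' J : Matrix (Fin n) (Fin n) ℂ} (hJu : IsUnit J.det)
    (hw : w = J.transpose * w' * J.map (starRingEnd ℂ)) (b : (Fin q → Fin n) → ℂ) :
    nsq w (fun I => tenPull J b I) = nsq w' b := by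
  have hd : (w⁻¹)ᵀ = J⁻¹ * (w'⁻¹)ᵀ * (J⁻¹)ᴴ := by
    rw [hw, inv_form hJu]
    simp only [Matrix.transpose_mul, Matrix.transpose_nonsing_inv, Matrix.transpose_transpose,
      Matrix.mul_assoc]
    congr 3
    rw [Matrix.conjTranspose_nonsing_inv]
    rfl
  have hm : mt q w = tp q J⁻¹ * mt q w' * (tp q J⁻¹)ᴴ := by
    unfold mt
    rw [hd, tp_mul, tp_mul, tp_conjTranspose]
  have h1 : tp q J * tp q J⁻¹ = 1 := by rw [← tp_mul, Matrix.mul_nonsing_inv _ hJu, tp_one]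
  have h2 : (tp q J⁻¹)ᴴ * (tp q J)ᴴ = 1 := by
    rw [← Matrix.conjTranspose_mul, h1, Matrix.conjTranspose_one]
  have hrow : rr (fun I => tenPull J b I) = rr b * tp q J := by
    ext i I
    show tenPull J b I = _
    rw [tenPull, Matrix.mul_apply]
    refine Finset.sum_congr rfl fun K _ => ?_
    show _ = b K * ∏ a, J (K a) (I a)
    rw [mul_comm]
  rw [nsq_eq, nsq_eq, hrow, hm]
  have e1 : rr b * tp q J * (tp q J⁻¹ * mt q w' * (tp q J⁻¹)ᴴ) * (rr b * tp q J)ᴴ =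
      rr b * mt q w' * (rr b)ᴴ := by
    rw [Matrix.conjTranspose_mul]
    calc _ = rr b * (tp q J * tp q J⁻¹) * mt q w' * ((tp q J⁻¹)ᴴ * (tp q J)ᴴ) * (rr b)ᴴ := by
          simp only [Matrix.mul_assoc]
      _ = _ := by rw [h1, h2]; simp only [Matrix.mul_assoc, Matrix.mul_one]
  rw [e1]

theorem mc_of_an {ι κ : Type*} {A : Cm n → Matrix ι κ ℂ} {z : Cm n}
    (h : ∀ i j, AnalyticAt ℂ (fun y => A y i j) z) : MC ∞ A z := fun i j => by
  have h1 : ContDiffAt ℂ ω (fun y => A y i j) z := (h i j).contDiffAt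
  exact (h1.restrict_scalars ℝ).of_le (by exact le_top)

theorem smooth_nsq' {W : Cm n → Matrix (Fin n) (Fin n) ℂ} {z : Cm n}
    (hW : MC ∞ W z) (hd : (W z).det ≠ 0) {a : (Fin q → Fin n) → Cm n → ℂ}
    (ha : ∀ I, AnalyticAt ℂ (a I) z) :
    ContDiffAt ℝ ∞ (fun y => nsq (W y) (fun I => a I y)) z := by
  have h1 : MC ∞ (fun y => rr fun I => a I y) z := mc_of_an fun _ I => ha I
  have h2 : MC ∞ (fun y => mt q (W y)) z := MC_tp q (MC_dual hW hd)
  have h3 := ((h1.mul h2).mul h1.conjTranspose) () ()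
  have h4 : (fun y => nsq (W y) (fun I => a I y)) = fun y =>
      (((rr fun I => a I y) * mt q (W y) * (rr fun I => a I y)ᴴ) () ()).re := by
    funext y
    rw [nsq_eq]
  rw [h4]
  exact Complex.reCLM.contDiff.contDiffAt.comp z h3

end lin

section

variable {n q M : ℕ} {X : Type} [TopologicalSpace X] [ChartedSpace (Cm n) X]
  [IsManifold 𝓘(ℂ, Cm n) ω X]

theorem dense_off_bd {Dv : Fin M → Set X} {r : Fin M → X → ℝ} {R : Fin M → FormM n X}
    (hb : IsBd Dv r R) : Dense {x | ∀ i, x ∉ Dv i} := by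
  have hAt : ∀ x : X, At (chartAt (Cm n) x) x := fun x =>
    ⟨chart_mem_atlas _ _, mem_chart_source _ _⟩
  have hl : ∀ i x, ∃ g : X → ℂ, IsLocalEq (Cm n) (Dv i) g x := by
    intro i x
    obtain ⟨g, ψ, -, -, h, -⟩ := hb.loc _ x (hAt x)
    exact ⟨_, h i⟩
  have hd : ∀ i, Dense (Dv i)ᶜ := by
    intro i
    rw [dense_iff_inter_open]
    intro O hO hne
    obtain ⟨x, hx, hxD⟩ := IsLocalEq.exists_notMem (hl i) hO hne
    exact ⟨x, hx, hxD⟩
  have ho : ∀ i, IsOpen (Dv i)ᶜ := by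
    intro i
    rw [isOpen_iff_mem_nhds]
    intro x hx
    obtain ⟨g, hg⟩ := hl i x
    have h5 : ContinuousAt g x := hg.holAt.continuousAt
    obtain ⟨W, hW, hxW, h1, h2, h3⟩ := hg
    have h4 : g x ≠ 0 := fun h => hx ((h2 x hxW).2 h)
    filter_upwards [hW.mem_nhds hxW, h5.eventually_ne h4] with y h6 h7 h8
    exact h7 ((h2 y h6).1 h8)
  have h : ∀ s : Finset (Fin M), Dense {x | ∀ i ∈ s, x ∉ Dv i} ∧
      IsOpen {x | ∀ i ∈ s, x ∉ Dv i} := by
    intro s
    induction s using Finset.induction_on with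
    | empty => simp
    | insert i s hi ih =>
      have h1 : {x | ∀ k ∈ insert i s, x ∉ Dv k} = (Dv i)ᶜ ∩ {x | ∀ k ∈ s, x ∉ Dv k} := by
        ext x
        simp
      rw [h1]
      exact ⟨Dense.inter_of_isOpen_left (hd i) ih.1 (ho i), (ho i).inter ih.2⟩
  have h2 := (h Finset.univ).1
  simpa using h2

/-- weights, with continuity only -/
def CW (r : Fin M → X → ℝ) (e : Chart n X) (x : X) (g : Fin M → Cm n → ℂ)
    (ψ : Fin M → Cm n → ℝ) : Prop :=
  (∀ i, ContinuousAt (ψ i) (e x)) ∧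
    ∀ᶠ z in 𝓝 (e x), ∀ i, r i (e.symm z) = ‖g i z‖ ^ 2 * Real.exp (-ψ i z)

theorem IsWts.cw {r : Fin M → X → ℝ} {e : Chart n X} {x : X}
    {g : Fin M → Cm n → ℂ} {ψ : Fin M → Cm n → ℝ} (hw : IsWts r e x g ψ) : CW r e x g ψ :=
  ⟨fun i => (hw.1 i).continuousAt, hw.2⟩

theorem IsWts.ev {r : Fin M → X → ℝ} {e : Chart n X} {x : X} (h : At e x)
    {g : Fin M → Cm n → ℂ} {ψ : Fin M → Cm n → ℝ} (hw : IsWts r e x g ψ) :
    ∀ᶠ y in 𝓝 x, CW r e y g ψ := by
  have h1 : ∀ᶠ z in 𝓝 (e x), ∀ i, ContinuousAt (ψ i) z := by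
    refine Filter.eventually_all.2 fun i => ?_
    have h3 : ContDiffAt ℝ 1 (ψ i) (e x) := (hw.1 i).of_le (by norm_cast)
    filter_upwards [h3.eventually (by norm_num)] with z hz using hz.continuousAt
  have h2 := (e.continuousAt h.2).eventually (eventually_eventually_nhds.2 hw.2)
  filter_upwards [(e.continuousAt h.2).eventually h1, h2] with y h1 h2 using ⟨h1, h2⟩

theorem exists_data {Dv : Fin M → Set X} {r : Fin M → X → ℝ} {R : Fin M → FormM n X}
    (hb : IsBd Dv r R) {K : Fin M → ℕ} {τ : Ten n q X} (hτ : IsTenK Dv K τ) {e : Chart n X} {x : X}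
    (h : At e x) : ∃ g ψ a, IsEqs Dv e x g ∧ IsWts r e x g ψ ∧ IsNum K τ e x g a := by
  obtain ⟨g, ψ, h1, h2, h3, h4, h5⟩ := hb.loc e x h
  have hg : IsEqs Dv e x g := ⟨h1, h3⟩
  obtain ⟨a, ha⟩ := hτ.num e x h g hg
  exact ⟨g, ψ, a, hg, ⟨h2, h5.mono fun z hz i => (hz i).1⟩, ha⟩

/-- the local formula -/
def fml (K : Fin M → ℕ) (c : ℝ) (G : FormM n X) (e : Chart n X) (ψ : Fin M → Cm n → ℝ)
    (a : (Fin q → Fin n) → Cm n → ℂ) (z : Cm n) : ℝ :=
  c * nsq (G e z) (fun I => a I z) * ∏ i, Real.exp (-(K i * ψ i z))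

theorem smooth_fml {K : Fin M → ℕ} {c : ℝ} {G : FormM n X} (hG : IsHermitian G) {e : Chart n X}
    {x : X} (h : At e x) {ψ : Fin M → Cm n → ℝ} (hψ : ∀ i, ContDiffAt ℝ ∞ (ψ i) (e x))
    {a : (Fin q → Fin n) → Cm n → ℂ} (ha : ∀ I, AnalyticAt ℂ (a I) (e x)) :
    ContDiffAt ℝ ∞ (fml K c G e ψ a) (e x) := by
  have h1 : ContDiffAt ℝ ∞ (fun y => nsq (G e y) (fun I => a I y)) (e x) :=
    smooth_nsq' (hG.smooth e x h) (hG.posDef e x h).det_pos.ne' ha
  have h2 : ContDiffAt ℝ ∞ (fun z => ∏ i, Real.exp (-(K i * ψ i z))) (e x) :=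
    contDiffAt_prod fun i _ => (contDiffAt_const.mul (hψ i)).neg.exp
  exact (contDiffAt_const.mul h1).mul h2

theorem cont_fml {K : Fin M → ℕ} {c : ℝ} {G : FormM n X} (hG : IsHermitian G) {e : Chart n X}
    {x : X} (h : At e x) {ψ : Fin M → Cm n → ℝ} (hψ : ∀ i, ContinuousAt (ψ i) (e x))
    {a : (Fin q → Fin n) → Cm n → ℂ} (ha : ∀ I, AnalyticAt ℂ (a I) (e x)) :
    ContinuousAt (fml K c G e ψ a) (e x) := by
  have h1 : ContinuousAt (fun y => nsq (G e y) (fun I => a I y)) (e x) :=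
    (smooth_nsq' (hG.smooth e x h) (hG.posDef e x h).det_pos.ne' ha).continuousAt
  have h2 : ContinuousAt (fun z => ∏ i, Real.exp (-(K i * ψ i z))) (e x) :=
    tendsto_finsetProd _ fun i _ => (continuousAt_const.mul (hψ i)).neg.rexp
  exact (continuousAt_const.mul h1).mul h2

/-- the formula off the divisors -/
theorem fml_off {K : Fin M → ℕ} {c : ℝ} {G : FormM n X} {r : Fin M → X → ℝ} {e : Chart n X}
    {y : X} {g : Fin M → Cm n → ℂ} {ψ : Fin M → Cm n → ℝ} {τ : Ten n q X}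
    {a : (Fin q → Fin n) → Cm n → ℂ} (hw : ∀ i, r i y = ‖g i (e y)‖ ^ 2 * Real.exp (-ψ i (e y)))
    (ha : ∀ I, τ e (e y) I * ∏ i, g i (e y) ^ K i = a I (e y)) :
    fml K c G e ψ a (e y) = c * nsq (G e (e y)) (fun I => τ e (e y) I) * ∏ i, r i y ^ K i := by
  unfold fml
  have h1 : (fun I => a I (e y)) = fun I => τ e (e y) I * ∏ i, g i (e y) ^ K i :=
    funext fun I => (ha I).symm
  rw [h1, nsq_smul]
  have h2 : ∏ i, r i y ^ K i = ‖∏ i, g i (e y) ^ K i‖ ^ 2 *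
      ∏ i, Real.exp (-(K i * ψ i (e y))) := by
    rw [norm_prod, ← Finset.prod_pow, ← Finset.prod_mul_distrib]
    refine Finset.prod_congr rfl fun i _ => ?_
    rw [hw i, mul_pow, norm_pow, ← Real.exp_nat_mul, ← pow_mul, ← pow_mul, mul_comm 2]
    congr 2
    ring
  rw [h2]
  ring

theorem fml_indep {Dv : Fin M → Set X} (hd : Dense {x | ∀ i, x ∉ Dv i}) {r : Fin M → X → ℝ}
    {K : Fin M → ℕ} {c : ℝ} {G : FormM n X} (hG : IsHermitian G) {τ : Ten n q X}
    (hτ : IsTenK Dv K τ) {e e' : Chart n X} {x : X} (h : At e x) (h' : At e' x)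
    {g g' : Fin M → Cm n → ℂ} {ψ ψ' : Fin M → Cm n → ℝ} {a a' : (Fin q → Fin n) → Cm n → ℂ}
    (hg : IsEqs Dv e x g) (hg' : IsEqs Dv e' x g') (hw : CW r e x g ψ)
    (hw' : CW r e' x g' ψ') (ha : IsNum K τ e x g a) (ha' : IsNum K τ e' x g' a') :
    fml K c G e ψ a (e x) = fml K c G e' ψ' a' (e' x) := by
  have c1 : ContinuousAt (fun y => fml K c G e ψ a (e y)) x :=
    ContinuousAt.comp (f := (e : X → Cm n)) (cont_fml hG h hw.1 ha.1)
      (e.continuousAt h.2)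
  have c2 : ContinuousAt (fun y => fml K c G e' ψ' a' (e' y)) x :=
    ContinuousAt.comp (f := (e' : X → Cm n)) (cont_fml hG h' hw'.1 ha'.1)
      (e'.continuousAt h'.2)
  refine tendsto_nhds_unique_of_frequently_eq c1 c2 ?_
  have h9 : ∃ᶠ y in 𝓝 x, ∀ i, y ∉ Dv i := mem_closure_iff_frequently.1 (hd x)
  refine (h9.and_eventually ((IsEqs.ev h hg).and ((IsEqs.ev h' hg').and
    (((e.continuousAt h.2).eventually ha.2).and (((e'.continuousAt h'.2).eventually ha'.2).and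
    (((e.continuousAt h.2).eventually hw.2).and (((e'.continuousAt h'.2).eventually hw'.2).and
    ((at_ev h).and (at_ev h'))))))))).mono ?_
  rintro y ⟨hy, h1, h2, h3, h4, h5, h6, h7, h8⟩
  have k1 : ∀ i, g i (e y) ≠ 0 := fun i hi => hy i (((h1.2 i).mem_iff).2 hi)
  have k2 : ∀ i, g' i (e' y) ≠ 0 := fun i hi => hy i (((h2.2 i).mem_iff).2 hi)
  rw [e.left_inv h7.2] at h5
  rw [e'.left_inv h8.2] at h6
  show fml K c G e ψ a (e y) = fml K c G e' ψ' a' (e' y)
  rw [fml_off h5 (h3 k1), fml_off h6 (h4 k2)]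
  have k3 : (fun I => τ e (e y) I) = fun I => tenPull (jacM e e' y) (τ e' (e' y)) I :=
    funext fun I => hτ.change e e' y h7 h8 hy I
  rw [k3, nsq_change (jacM_isUnit h7 h8) (hG.change e e' y h7 h8)]

/-- the vanishing of the numerators does not depend on the choices -/
theorem num_indep' {Dv : Fin M → Set X} (hD : Dense {x | ∀ i, x ∉ Dv i})
    {K : Fin M → ℕ} {τ : Ten n q X} (hτ : IsTenK Dv K τ) {e e' : Chart n X} {x : X}
    (h : At e x) (h' : At e' x) {g g' : Fin M → Cm n → ℂ} (hg : IsEqs Dv e x g)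
    (hg' : IsEqs Dv e' x g') {a a' : (Fin q → Fin n) → Cm n → ℂ} (ha : IsNum K τ e x g a)
    (ha' : IsNum K τ e' x g' a') (h0 : ∀ I, a' I (e' x) = 0) (I : Fin q → Fin n) :
    a I (e x) = 0 := by
  have hu : ∀ i, ∃ u : X → ℂ, HolV (Cm n) u x ∧ u x ≠ 0 ∧
      ∀ᶠ z in 𝓝 x, g i (e z) = g' i (e' z) * u z := fun i => leq_unit (hg'.2 i) (hg.2 i)
  choose u hu hu0 hue using hu
  have hue' : ∀ᶠ z in 𝓝 x, ∀ i, g i (e z) = g' i (e' z) * u i z := Filter.eventually_all.2 hue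
  have key : a I (e x) = (∏ i, u i x ^ K i) *
      ∑ J : Fin q → Fin n, (∏ t, jacM e e' x (J t) (I t)) * a' J (e' x) := by
    refine eq_of_dense (x := x) (g := fun y => a I (e y)) (h := fun y => (∏ i, u i y ^ K i) *
      ∑ J : Fin q → Fin n, (∏ t, jacM e e' y (J t) (I t)) * a' J (e' y)) hD ?_ ?_ ?_
    · exact ContinuousAt.comp (f := (e : X → Cm n)) (ha.1 I).continuousAt (e.continuousAt h.2)
    · refine ContinuousAt.mul ?_ ?_
      · exact tendsto_finsetProd _ fun i _ => (hu i).continuousAt.pow (K i)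
      · refine tendsto_finsetSum _ fun J _ => Tendsto.mul ?_ ?_
        · exact tendsto_finsetProd _ fun t _ => contAt_jacM h h' (J t) (I t)
        · exact ContinuousAt.comp (f := (e' : X → Cm n)) (ha'.1 J).continuousAt
            (e'.continuousAt h'.2)
    · filter_upwards [IsEqs.ev h hg, IsEqs.ev h' hg', (e.continuousAt h.2).eventually ha.2,
        (e'.continuousAt h'.2).eventually ha'.2, at_ev h, at_ev h', hue'] with
        y h1 h2 h3 h4 h5 h6 h7 hy
      have h8 : ∀ i, g i (e y) ≠ 0 := fun i hi => hy i (((h1.2 i).mem_iff).2 hi)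
      have h9 : ∀ i, g' i (e' y) ≠ 0 := fun i hi => hy i (((h2.2 i).mem_iff).2 hi)
      have h10 := h3 h8 I
      have h11 := h4 h9
      rw [← h10, hτ.change e e' y h5 h6 hy I]
      unfold tenPull
      rw [Finset.sum_mul, Finset.mul_sum]
      refine Finset.sum_congr rfl fun J _ => ?_
      rw [← h11 J]
      have h12 : ∏ i, g i (e y) ^ K i = (∏ i, u i y ^ K i) * ∏ i, g' i (e' y) ^ K i := by
        rw [← Finset.prod_mul_distrib]
        refine Finset.prod_congr rfl fun i _ => ?_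
        rw [h7 i, mul_pow]
        ring
      rw [h12]
      ring
  rw [key]
  simp [h0]

theorem exists_norm {Dv : Fin M → Set X} {r : Fin M → X → ℝ} {R : Fin M → FormM n X}
    (hb : IsBd Dv r R) {K : Fin M → ℕ} {τ : Ten n q X} (hτ : IsTenK Dv K τ) {c : ℝ}
    (hc : 0 < c) : ∃ N : FormM n X → X → ℝ, IsNorm Dv r K τ c N := by
  have hd := dense_off_bd hb
  have hAt : ∀ x : X, At (chartAt (Cm n) x) x := fun x =>
    ⟨chart_mem_atlas _ _, mem_chart_source _ _⟩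
  choose g ψ a h1 h2 h3 using fun x => exists_data hb hτ (hAt x)
  set N : FormM n X → X → ℝ := fun G x =>
    fml K c G (chartAt (Cm n) x) (ψ x) (a x) (chartAt (Cm n) x x) with hN
  have hloc : ∀ (G : FormM n X) (e : Chart n X) (x : X) (g : Fin M → Cm n → ℂ)
      (ψ : Fin M → Cm n → ℝ) (a : (Fin q → Fin n) → Cm n → ℂ), IsKahler G → At e x →
      IsEqs Dv e x g → CW r e x g ψ → IsNum K τ e x g a → N G x = fml K c G e ψ a (e x) := by
    intro G e x g' ψ' a' hG hx k1 k2 k3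
    exact fml_indep hd hG.toIsHermitian hτ (hAt x) hx (h1 x) k1 (IsWts.cw (h2 x)) k2 (h3 x) k3
  have hloc' : ∀ (G : FormM n X) (e : Chart n X) (x : X) (g : Fin M → Cm n → ℂ)
      (ψ : Fin M → Cm n → ℝ) (a : (Fin q → Fin n) → Cm n → ℂ), IsKahler G → At e x →
      IsEqs Dv e x g → IsWts r e x g ψ → IsNum K τ e x g a →
      ∀ᶠ z in 𝓝 (e x), N G (e.symm z) = fml K c G e ψ a z := by
    intro G e x g' ψ' a' hG hx k1 k2 k3
    have h4 : ∀ᶠ y in 𝓝 x, N G y = fml K c G e ψ' a' (e y) := by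
      filter_upwards [at_ev hx, IsEqs.ev hx k1, IsWts.ev hx k2, IsNum.ev hx k3] with y m1 m2 m3 m4
      exact hloc G e y g' ψ' a' hG m1 m2 m3 m4
    filter_upwards [(tendsto_symm_at hx).eventually h4,
      e.open_target.mem_nhds (e.map_source hx.2)] with z hz hzt
    rw [hz, e.right_inv hzt]
  refine ⟨N, ?_, ?_, ?_, ?_⟩
  · intro G hG e x hx
    obtain ⟨g', ψ', a', k1, k2, k3⟩ := exists_data hb hτ hx
    exact (smooth_fml hG.toIsHermitian hx k2.1 k3.1).congr_of_eventuallyEq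
      (hloc' G e x g' ψ' a' hG hx k1 k2 k3)
  · intro G x hG
    refine mul_nonneg (mul_nonneg hc.le (nsq_nonneg (hG.posDef _ x (hAt x)) _))
      (Finset.prod_nonneg fun i _ => (Real.exp_pos _).le)
  · intro G e x g' a' hG hx k1 k3
    obtain ⟨g'', ψ'', a'', m1, m2, m3⟩ := exists_data hb hτ hx
    rw [hloc G e x g'' ψ'' a'' hG hx m1 (IsWts.cw m2) m3, fml]
    have e1 : (∏ i, Real.exp (-(K i * ψ'' i (e x)))) ≠ 0 :=
      Finset.prod_ne_zero_iff.2 fun i _ => (Real.exp_pos _).ne'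
    rw [mul_eq_zero, or_iff_left e1, mul_eq_zero, or_iff_right hc.ne',
      nsq_eq_zero_iff (hG.posDef e x hx)]
    constructor
    · intro h0 I
      exact num_indep' hd hτ hx hx k1 m1 k3 m3 h0 I
    · intro h0 I
      exact num_indep' hd hτ hx hx m1 k1 m3 k3 h0 I
  · intro G e x g' ψ' a' hG hx k1 k2 k3
    exact hloc' G e x g' ψ' a' hG hx k1 k2 k3

theorem hol_norm {Dv : Fin M → Set X} {r : Fin M → X → ℝ} {R : Fin M → FormM n X}
    (hb : IsBd Dv r R) {K : Fin M → ℕ} {τ₀ τ₁ : Ten n q X} (hτ₀ : IsTenK Dv K τ₀)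
    (hτ₁ : IsTenK Dv K τ₁) {c : ℝ} (hc : 0 < c) {N₀ N₁ : FormM n X → X → ℝ}
    (h₀ : IsNorm Dv r K τ₀ c N₀) (h₁ : IsNorm Dv r K τ₁ c N₁) {χ : FormM n X}
    (hχ : IsKahler χ) : IsHolNorm (n := n) fun x => N₀ χ x + N₁ χ x := by
  intro e x hx
  obtain ⟨g, ψ, k1, k2, k3, -, k5⟩ := hb.loc e x hx
  have hg : IsEqs Dv e x g := ⟨k1, k3⟩
  have hw : IsWts r e x g ψ := ⟨k2, k5.mono fun z hz i => (hz i).1⟩
  obtain ⟨a₀, ha₀⟩ := hτ₀.num e x hx g hg
  obtain ⟨a₁, ha₁⟩ := hτ₁.num e x hx g hg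
  set σ : Fin (Fintype.card (Fin 2 × (Fin q → Fin n))) ≃ Fin 2 × (Fin q → Fin n) :=
    (Fintype.equivFin (Fin 2 × (Fin q → Fin n))).symm with hσ
  set s : Cm n → ℝ := fun z => c * ∏ i, Real.exp (-(K i * ψ i z)) with hs
  have hs0 : ∀ z, 0 < s z := fun z => mul_pos hc (Finset.prod_pos fun i _ => Real.exp_pos _)
  have hsS : ContDiffAt ℝ ∞ s (e x) :=
    contDiffAt_const.mul (contDiffAt_prod fun i _ => (contDiffAt_const.mul (k2 i)).neg.exp)
  set Hm : Cm n → Matrix (Fin 2 × (Fin q → Fin n)) (Fin 2 × (Fin q → Fin n)) ℂ := fun z =>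
    (1 : Matrix (Fin 2) (Fin 2) ℂ) ⊗ₖ (((s z : ℝ) : ℂ) • mt q (χ e z)) with hHm
  have hHp : ∀ z, (χ e z).PosDef → (Hm z).PosDef := by
    intro z hz
    refine Matrix.PosDef.kronecker Matrix.PosDef.one ?_
    exact (mt_posDef hz).smul (by exact_mod_cast hs0 z)
  refine ⟨Fintype.card (Fin 2 × (Fin q → Fin n)), fun b z => if (σ b).1 = 0 then a₀ (σ b).2 z else a₁ (σ b).2 z,
    fun z => (Hm z).submatrix σ σ, ?_, ?_, ?_, ?_⟩
  · intro b
    by_cases hb0 : (σ b).1 = 0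
    · simp only [hb0, if_true]
      exact ha₀.1 _
    · simp only [hb0, if_false]
      exact ha₁.1 _
  · intro b b'
    have h2 : MC ∞ (fun y => mt q (χ e y)) (e x) :=
      MC_tp q (MC_dual (hχ.smooth e x hx) (hχ.posDef e x hx).det_pos.ne')
    have h3 : ContDiffAt ℝ ∞ (fun z => ((s z : ℝ) : ℂ)) (e x) :=
      Complex.ofRealCLM.contDiff.contDiffAt.comp (e x) hsS
    exact contDiffAt_const.mul (h3.mul (h2 (σ b).2 (σ b').2))
  · exact (hHp _ (hχ.posDef e x hx)).submatrix σ.injective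
  · have hAtev := at_ev hx
    filter_upwards [h₀.loc χ e x g ψ a₀ hχ hx hg hw ha₀, h₁.loc χ e x g ψ a₁ hχ hx hg hw ha₁,
      (tendsto_symm_at hx).eventually hAtev, e.open_target.mem_nhds (e.map_source hx.2)] with
      z z0 z1 z2 z3
    have hp : (χ e z).PosDef := by
      have := hχ.posDef e _ z2
      rwa [e.right_inv z3] at this
    refine ⟨((hHp z hp).submatrix σ.injective).isHermitian, ?_⟩
    rw [z0, z1]
    have e2 : (∑ b, ∑ b', (if (σ b).1 = 0 then a₀ (σ b).2 z else a₁ (σ b).2 z) *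
        (starRingEnd ℂ) (if (σ b').1 = 0 then a₀ (σ b').2 z else a₁ (σ b').2 z) *
        (Hm z).submatrix σ σ b b') =
        ((s z : ℝ) : ℂ) * (∑ I, ∑ J, a₀ I z * (starRingEnd ℂ) (a₀ J z) *
          ∏ t, (χ e z)⁻¹ (J t) (I t)) +
        ((s z : ℝ) : ℂ) * (∑ I, ∑ J, a₁ I z * (starRingEnd ℂ) (a₁ J z) *
          ∏ t, (χ e z)⁻¹ (J t) (I t)) := by
      have e3 := σ.sum_comp (fun p : Fin 2 × (Fin q → Fin n) => ∑ b', (if p.1 = 0 then a₀ p.2 z else a₁ p.2 z) *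
        (starRingEnd ℂ) (if (σ b').1 = 0 then a₀ (σ b').2 z else a₁ (σ b').2 z) *
        (Hm z) p (σ b'))
      refine e3.trans ?_
      have e4 : ∀ p : Fin 2 × (Fin q → Fin n), (∑ b', (if p.1 = 0 then a₀ p.2 z else a₁ p.2 z) *
        (starRingEnd ℂ) (if (σ b').1 = 0 then a₀ (σ b').2 z else a₁ (σ b').2 z) *
        (Hm z) p (σ b')) = ∑ p' : Fin 2 × (Fin q → Fin n), (if p.1 = 0 then a₀ p.2 z else a₁ p.2 z) *
        (starRingEnd ℂ) (if p'.1 = 0 then a₀ p'.2 z else a₁ p'.2 z) * (Hm z) p p' := fun p =>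
        σ.sum_comp (fun p' : Fin 2 × (Fin q → Fin n) => (if p.1 = 0 then a₀ p.2 z else a₁ p.2 z) *
        (starRingEnd ℂ) (if p'.1 = 0 then a₀ p'.2 z else a₁ p'.2 z) * (Hm z) p p')
      rw [Finset.sum_congr rfl fun p _ => e4 p, Fintype.sum_prod_type, Fin.sum_univ_two]
      simp only [Fintype.sum_prod_type, Fin.sum_univ_two, hHm, Matrix.kroneckerMap_apply,
        Matrix.one_apply, Matrix.smul_apply, smul_eq_mul, mt, tp_apply, Matrix.transpose_apply]
      simp only [if_true, one_ne_zero, zero_ne_one, if_false, zero_mul, mul_zero, one_mul,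
        Finset.sum_const_zero, add_zero, zero_add, Finset.mul_sum]
      congr 1
      · refine Finset.sum_congr rfl fun I _ => Finset.sum_congr rfl fun J _ => ?_
        ring
      · refine Finset.sum_congr rfl fun I _ => Finset.sum_congr rfl fun J _ => ?_
        ring
    rw [e2, Complex.add_re, Complex.re_ofReal_mul, Complex.re_ofReal_mul]
    simp only [hs, nsq]
    ring

end

/-- **Row A**. -/
theorem normPart : NormPart := by
  intro n q M X _ _ _ Dv r R hb K τ₀ τ₁ hτ₀ hτ₁ c hc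
  obtain ⟨N₀, h₀⟩ := exists_norm hb hτ₀ hc
  obtain ⟨N₁, h₁⟩ := exists_norm hb hτ₁ hc
  exact ⟨N₀, N₁, h₀, h₁, fun χ hχ => hol_norm hb hτ₀ hτ₁ hc h₀ h₁ hχ⟩

end Vale.Agent.P281.H787.KD
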