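import Vale.Agent.P281.H368.GM.B
import Mathlib.Analysis.Calculus.ContDiff.RCLike
import Mathlib.Analysis.Calculus.InverseFunctionTheorem.ApproximatesLinearOn

/-! P281, theorem GM, lemma K1: a nonnegative `C²` function that vanishes on a smooth hypersurface
`g = 0` is at most `C |g|²` near every point of the hypersurface. -/

open scoped Topology ContDiff NNReal
open Set Filter Metric Vale.Agent.P281.J Vale.Agent.P272.K Vale.Agent.P299

noncomputable section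

namespace Vale.Agent.P281.H787

variable {n : ℕ}

/-- near a point of the smooth hypersurface `g = 0`, the distance to the hypersurface is at most
`C |g|` -/
theorem dist_zero_le {g : Cm n → ℂ} {p : Cm n} (hg : ContDiffAt ℂ ω g p) (hd : fderiv ℂ g p ≠ 0)
    (h0 : g p = 0) : ∃ C : ℝ, 0 ≤ C ∧ ∀ᶠ z in 𝓝 p, ∃ w, g w = 0 ∧ ‖w - z‖ ≤ C * ‖g z‖ := by
  have hstrict : HasStrictFDerivAt g (fderiv ℂ g p) p := hg.hasStrictFDerivAt (by simp)
  have hsurj : LinearMap.range (fderiv ℂ g p : Cm n →ₗ[ℂ] ℂ) = ⊤ := by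
    rw [LinearMap.range_eq_top]
    refine LinearMap.surjective ?_
    intro h
    exact hd (ContinuousLinearMap.coe_injective (by simpa using h))
  set R := (fderiv ℂ g p).nonlinearRightInverseOfSurjective hsurj with hR
  have hRpos : 0 < R.nnnorm := (fderiv ℂ g p).nonlinearRightInverseOfSurjective_nnnorm_pos hsurj
  set c : ℝ≥0 := R.nnnorm⁻¹ / 2 with hc
  have hcpos : 0 < c := by positivity
  obtain ⟨s, hs, happ⟩ := hstrict.approximates_deriv_on_nhds (c := c) (Or.inr hcpos)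
  obtain ⟨r, hr, hrs⟩ := Metric.mem_nhds_iff.1 hs
  have hcc : ((R.nnnorm : ℝ)⁻¹ - c) = c := by
    rw [hc]
    push_cast
    ring
  have hcp : (0 : ℝ) < c := by exact_mod_cast hcpos
  refine ⟨(c : ℝ)⁻¹, by positivity, ?_⟩
  have hcont : Tendsto (fun z => ‖z - p‖ + (c : ℝ)⁻¹ * ‖g z‖) (𝓝 p) (𝓝 0) := by
    have h1 : ContinuousAt (fun z => ‖z - p‖ + (c : ℝ)⁻¹ * ‖g z‖) p :=
      ((continuousAt_id.sub continuousAt_const).norm).add
        (continuousAt_const.mul hg.continuousAt.norm)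
    have h2 := h1.tendsto
    simpa [h0] using h2
  filter_upwards [hcont.eventually (gt_mem_nhds hr)] with z hz
  have hsub : closedBall z ((c : ℝ)⁻¹ * ‖g z‖) ⊆ s := by
    refine Subset.trans (fun w hw => ?_) hrs
    rw [mem_closedBall, dist_eq_norm] at hw
    rw [mem_ball, dist_eq_norm]
    calc ‖w - p‖ = ‖(w - z) + (z - p)‖ := by congr 1; abel
      _ ≤ ‖w - z‖ + ‖z - p‖ := norm_add_le _ _
      _ ≤ (c : ℝ)⁻¹ * ‖g z‖ + ‖z - p‖ := by gcongr
      _ < r := by linarith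
  have h1 := happ.surjOn_closedBall_of_nonlinearRightInverse R
    (ε := (c : ℝ)⁻¹ * ‖g z‖) (b := z) (by positivity) hsub
  have h2 : (0 : ℂ) ∈ closedBall (g z) (((R.nnnorm : ℝ)⁻¹ - c) * ((c : ℝ)⁻¹ * ‖g z‖)) := by
    rw [hcc, ← mul_assoc, mul_inv_cancel₀ hcp.ne', one_mul, mem_closedBall, dist_eq_norm, zero_sub,
      norm_neg]
  obtain ⟨w, hw, hw0⟩ := h1 h2
  refine ⟨w, hw0, ?_⟩
  rw [mem_closedBall, dist_eq_norm] at hw
  exact hw

/-- **Lemma K1.** A nonnegative `C²` function which vanishes on the smooth hypersurface `g = 0` is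
`O(|g|²)`. -/
theorem le_mul_normSq {f : Cm n → ℝ} {g : Cm n → ℂ} {p : Cm n} (hf : ContDiffAt ℝ 2 f p)
    (hf0 : ∀ᶠ z in 𝓝 p, 0 ≤ f z) (hg : ContDiffAt ℂ ω g p) (hd : fderiv ℂ g p ≠ 0) (h0 : g p = 0)
    (hfg : ∀ᶠ z in 𝓝 p, g z = 0 → f z = 0) : ∃ C : ℝ, ∀ᶠ z in 𝓝 p, f z ≤ C * ‖g z‖ ^ 2 := by
  obtain ⟨C, hC0, hC⟩ := dist_zero_le hg hd h0
  obtain ⟨K, t, ht, hK⟩ := (hf.fderiv_right (m := 1) (by norm_num)).exists_lipschitzOnWith
  have hdiff : ∀ᶠ z in 𝓝 p, DifferentiableAt ℝ f z :=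
    (hf.eventually (by simp)).mono fun z hz => hz.differentiableAt (by simp)
  have hff : ∀ᶠ z in 𝓝 p, ∀ᶠ y in 𝓝 z, 0 ≤ f y := eventually_eventually_nhds.2 hf0
  obtain ⟨r, hr, hB⟩ := Metric.mem_nhds_iff.1 (inter_mem (inter_mem ht hdiff) (inter_mem hff hfg))
  have hcont : Tendsto (fun z => ‖z - p‖ + C * ‖g z‖) (𝓝 p) (𝓝 0) := by
    have h1 : ContinuousAt (fun z => ‖z - p‖ + C * ‖g z‖) p :=
      ((continuousAt_id.sub continuousAt_const).norm).add
        (continuousAt_const.mul hg.continuousAt.norm)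
    have h2 := h1.tendsto
    simpa [h0] using h2
  refine ⟨K * C ^ 2, ?_⟩
  filter_upwards [hcont.eventually (gt_mem_nhds hr), hC] with z hz hw
  obtain ⟨w, hw0, hwz⟩ := hw
  have hzB : z ∈ ball p r := by
    rw [mem_ball, dist_eq_norm]
    have : 0 ≤ C * ‖g z‖ := by positivity
    linarith
  have hwB : w ∈ ball p r := by
    rw [mem_ball, dist_eq_norm]
    calc ‖w - p‖ = ‖(w - z) + (z - p)‖ := by congr 1; abel
      _ ≤ ‖w - z‖ + ‖z - p‖ := norm_add_le _ _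
      _ ≤ C * ‖g z‖ + ‖z - p‖ := by gcongr
      _ < r := by linarith
  have hfw : f w = 0 := (hB hwB).2.2 hw0
  have hmin : IsLocalMin f w := by
    filter_upwards [(hB hwB).2.1] with y hy
    rw [hfw]
    exact hy
  have hdw : fderiv ℝ f w = 0 := hmin.fderiv_eq_zero
  have hseg : segment ℝ w z ⊆ ball p r := (convex_ball p r).segment_subset hwB hzB
  have h1 : ‖f z - f w‖ ≤ (K * ‖z - w‖) * ‖z - w‖ := by
    refine Convex.norm_image_sub_le_of_norm_fderiv_le (𝕜 := ℝ) (s := segment ℝ w z)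
      (fun y hy => (hB (hseg hy)).1.2) (fun y hy => ?_) (convex_segment w z)
      (left_mem_segment ℝ w z) (right_mem_segment ℝ w z)
    have h2 := hK.norm_sub_le (hB (hseg hy)).1.1 (hB hwB).1.1
    rw [hdw, sub_zero] at h2
    refine h2.trans ?_
    gcongr
    exact norm_sub_le_of_mem_segment hy
  rw [hfw, sub_zero] at h1
  calc f z ≤ ‖f z‖ := Real.le_norm_self _
    _ ≤ (K * ‖z - w‖) * ‖z - w‖ := h1
    _ = K * ‖w - z‖ ^ 2 := by rw [norm_sub_rev]; ring
    _ ≤ K * (C * ‖g z‖) ^ 2 := by gcongr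
    _ = K * C ^ 2 * ‖g z‖ ^ 2 := by ring

end Vale.Agent.P281.H787
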