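import Vale.Agent.P299.H167.Mat

/-! P281, block GM-H: pointwise matrix lemmas. -/

open scoped ComplexOrder Matrix Topology
open Matrix Filter Vale.Agent.P299.H167

noncomputable section

namespace Vale.Agent.P281.H787

variable {n : ℕ}

/-- `mixD` of `H167.GM` -/
def mixD' (A B : Matrix (Fin n) (Fin n) ℂ) : ℝ := (A.adjugate * B).trace.re

lemma mixD'_of_isUnit {A B : Matrix (Fin n) (Fin n) ℂ} (hA : IsUnit A.det) :
    mixD' A B = (A.det * (A⁻¹ * B).trace).re := by
  have h : A.adjugate = A.det • A⁻¹ := by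
    rw [Matrix.inv_def, smul_smul, Ring.mul_inverse_cancel _ hA, one_smul]
  rw [mixD', h, Matrix.smul_mul, Matrix.trace_smul, smul_eq_mul]

lemma diag_ineq {d : Fin n → ℝ} (hd : ∀ i, 0 ≤ d i) {ν : ℕ}
    (hν : (Finset.univ.filter fun i => d i ≠ 0).card ≤ ν) {s : ℝ} (hs : 1 ≤ s) :
    (∏ i, (1 + s * d i)) * ∑ i, (1 + s * d i)⁻¹ * d i ≤
      s ^ ν / s * ((∏ i, (1 + d i)) * ∑ i, (1 + d i)⁻¹ * d i) := by
  have hs0 : 0 < s := by linarith
  rw [Finset.mul_sum, Finset.mul_sum, Finset.mul_sum]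
  refine Finset.sum_le_sum fun i _ => ?_
  by_cases hi : d i = 0
  · simp [hi]
  have hpos : ∀ j, 0 < 1 + s * d j := fun j => by have := mul_nonneg hs0.le (hd j); linarith
  have hpos1 : ∀ j, 0 < 1 + d j := fun j => by have := hd j; linarith
  rw [← Finset.mul_prod_erase Finset.univ (fun j => 1 + s * d j) (Finset.mem_univ i),
    ← Finset.mul_prod_erase Finset.univ (fun j => 1 + d j) (Finset.mem_univ i)]
  have e1 : (1 + s * d i) * (∏ j ∈ Finset.univ.erase i, (1 + s * d j)) *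
      ((1 + s * d i)⁻¹ * d i) = (∏ j ∈ Finset.univ.erase i, (1 + s * d j)) * d i := by
    field_simp [(hpos i).ne']
  have e2 : (1 + d i) * (∏ j ∈ Finset.univ.erase i, (1 + d j)) *
      ((1 + d i)⁻¹ * d i) = (∏ j ∈ Finset.univ.erase i, (1 + d j)) * d i := by
    field_simp [(hpos1 i).ne']
  rw [e1, e2, ← mul_assoc]
  refine mul_le_mul_of_nonneg_right ?_ (hd i)
  have h1 : ∏ j ∈ Finset.univ.erase i, (1 + s * d j) ≤
      ∏ j ∈ Finset.univ.erase i, ((if d j ≠ 0 then s else 1) * (1 + d j)) := by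
    refine Finset.prod_le_prod (fun j _ => (hpos j).le) fun j _ => ?_
    by_cases hj : d j = 0
    · simp [hj]
    · rw [if_pos hj, mul_add, mul_one]
      linarith
  refine h1.trans ?_
  rw [Finset.prod_mul_distrib]
  refine mul_le_mul_of_nonneg_right ?_ (Finset.prod_nonneg fun j _ => (hpos1 j).le)
  rw [Finset.prod_ite, Finset.prod_const, Finset.prod_const, one_pow, mul_one]
  have h2 : ((Finset.univ.erase i).filter fun j => d j ≠ 0).card + 1 ≤ ν := by
    refine le_trans (le_of_eq ?_) hν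
    rw [Finset.filter_erase, Finset.card_erase_add_one]
    simp [hi]
  rw [le_div_iff₀ hs0, ← pow_succ]
  exact pow_le_pow_right₀ hs h2

lemma mixD'_le_pos {A B : Matrix (Fin n) (Fin n) ℂ} (hA : A.PosDef) (hB : B.PosSemidef) {ν : ℕ}
    (hr : B.rank ≤ ν) {s : ℝ} (hs : 1 ≤ s) :
    mixD' (A + (s : ℂ) • B) B ≤ s ^ ν / s * mixD' (A + B) B := by
  obtain ⟨P, d, hP, rfl, rfl⟩ := exists_simdiag hA hB.1
  have hd : ∀ i, 0 ≤ d i := diag_nonneg hP hB
  have hP' : IsUnit Pᴴ.det := by rw [det_conjTranspose]; exact hP.star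
  have hν : (Finset.univ.filter fun i => d i ≠ 0).card ≤ ν := by
    refine le_trans (le_of_eq ?_) hr
    rw [Matrix.rank_mul_eq_left_of_isUnit_det _ _ hP, Matrix.rank_mul_eq_right_of_isUnit_det _ _ hP',
      Matrix.rank_diagonal, Fintype.card_subtype]
    congr 1
    ext i
    simp
  have key : ∀ r : ℝ, 0 ≤ r → mixD' (Pᴴ * P + (r : ℂ) • (Pᴴ * diagonal (fun i => (d i : ℂ)) * P))
      (Pᴴ * diagonal (fun i => (d i : ℂ)) * P) =
      ‖P.det‖ ^ 2 * ((∏ i, (1 + r * d i)) * ∑ i, (1 + r * d i)⁻¹ * d i) := by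
    intro r hr0
    have hpos : ∀ j, 0 < 1 + r * d j := fun j => by have := mul_nonneg hr0 (hd j); linarith
    have e1 : Pᴴ * P + (r : ℂ) • (Pᴴ * diagonal (fun i => (d i : ℂ)) * P) =
        Pᴴ * diagonal (fun i => ((1 + r * d i : ℝ) : ℂ)) * P := by
      have : diagonal (fun i => ((1 + r * d i : ℝ) : ℂ)) =
          1 + (r : ℂ) • diagonal (fun i => (d i : ℂ)) := by
        rw [← Matrix.diagonal_one, ← Matrix.diagonal_smul, Matrix.diagonal_add]
        congr 1
        ext i
        simp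
      rw [this, Matrix.mul_add, Matrix.add_mul, Matrix.mul_one, Matrix.mul_smul, Matrix.smul_mul]
    have hD : IsUnit (diagonal (fun i => ((1 + r * d i : ℝ) : ℂ)) : Matrix (Fin n) (Fin n) ℂ).det := by
      rw [Matrix.det_diagonal]
      refine isUnit_iff_ne_zero.2 (Finset.prod_ne_zero_iff.2 fun j _ => ?_)
      exact_mod_cast (hpos j).ne'
    rw [e1, mixD'_of_isUnit (by rw [det_mul, det_mul]; exact (hP'.mul hD).mul hP),
      trace_inv_conj hP hD]
    have e2 : (diagonal (fun i => ((1 + r * d i : ℝ) : ℂ)))⁻¹ * diagonal (fun i => (d i : ℂ)) =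
        (diagonal fun i => (((1 + r * d i)⁻¹ * d i : ℝ) : ℂ) : Matrix (Fin n) (Fin n) ℂ) := by
      rw [Matrix.inv_eq_left_inv (B := diagonal fun i => (((1 + r * d i : ℝ) : ℂ))⁻¹)]
      · rw [Matrix.diagonal_mul_diagonal]
        congr 1
        ext i
        push_cast
        ring
      · rw [Matrix.diagonal_mul_diagonal, ← Matrix.diagonal_one]
        congr 1
        ext i
        rw [inv_mul_cancel₀]
        exact_mod_cast (hpos i).ne'
    rw [e2, Matrix.trace_diagonal, ← Complex.ofReal_sum]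
    rw [mul_comm, Complex.re_ofReal_mul, det_conj_mul, Matrix.det_diagonal, re_prod_ofReal]
    ring
  have h1 := key s (by linarith)
  have h2 := key 1 zero_le_one
  rw [Complex.ofReal_one, one_smul] at h2
  rw [h1, h2]
  have h3 := mul_le_mul_of_nonneg_left (diag_ineq hd hν hs) (sq_nonneg ‖P.det‖)
  simp only [one_mul] at *
  calc _ ≤ _ := h3
    _ = _ := by ring

lemma continuous_mixD' {f g : ℝ → Matrix (Fin n) (Fin n) ℂ} (hf : Continuous f)
    (hg : Continuous g) : Continuous fun t => mixD' (f t) (g t) :=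
  Complex.continuous_re.comp ((hf.matrix_adjugate.matrix_mul hg).matrix_trace)

/-- growth in `s` of the mixed determinant -/
theorem mixD'_le {A B : Matrix (Fin n) (Fin n) ℂ} (hA : A.PosSemidef) (hB : B.PosSemidef) {ν : ℕ}
    (hr : B.rank ≤ ν) {s : ℝ} (hs : 1 ≤ s) :
    mixD' (A + (s : ℂ) • B) B ≤ s ^ ν / s * mixD' (A + B) B := by
  have hc : Continuous fun t : ℝ => A + (t : ℂ) • (1 : Matrix (Fin n) (Fin n) ℂ) :=
    continuous_const.add (Complex.continuous_ofReal.smul continuous_const)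
  have c1 : Tendsto (fun t : ℝ => mixD' (A + (t : ℂ) • (1 : Matrix (Fin n) (Fin n) ℂ) + (s : ℂ) • B) B)
      (𝓝[>] 0) (𝓝 (mixD' (A + (s : ℂ) • B) B)) := by
    have := (continuous_mixD' (hc.add continuous_const) (continuous_const (y := B))).tendsto 0
      (f := fun t : ℝ => mixD' (A + (t : ℂ) • (1 : Matrix (Fin n) (Fin n) ℂ) + (s : ℂ) • B) B)
    simp only [Complex.ofReal_zero, zero_smul, add_zero] at this
    exact this.mono_left nhdsWithin_le_nhds
  have c2 : Tendsto (fun t : ℝ => s ^ ν / s * mixD' (A + (t : ℂ) • (1 : Matrix (Fin n) (Fin n) ℂ) + B) B)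
      (𝓝[>] 0) (𝓝 (s ^ ν / s * mixD' (A + B) B)) := by
    have := (continuous_mixD' (hc.add continuous_const) (continuous_const (y := B))).tendsto 0
      (f := fun t : ℝ => mixD' (A + (t : ℂ) • (1 : Matrix (Fin n) (Fin n) ℂ) + B) B)
    simp only [Complex.ofReal_zero, zero_smul, add_zero] at this
    exact (this.mono_left nhdsWithin_le_nhds).const_mul _
  refine le_of_tendsto_of_tendsto c1 c2 ?_
  filter_upwards [self_mem_nhdsWithin] with t ht
  refine mixD'_le_pos ?_ hB hr hs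
  have : ((t : ℂ) • (1 : Matrix (Fin n) (Fin n) ℂ)).PosDef :=
    Matrix.PosDef.one.smul (by exact_mod_cast ht)
  exact Matrix.PosDef.posSemidef_add hA this

/-- a matrix with a large kernel has no adjugate -/
theorem adjugate_eq_zero {A : Matrix (Fin n) (Fin n) ℂ}
    (h : ∀ i, ∃ x : Fin n → ℂ, x ≠ 0 ∧ x i = 0 ∧ A.mulVec x = 0) : A.adjugate = 0 := by
  ext i j
  rw [Matrix.adjugate_apply, Matrix.zero_apply]
  obtain ⟨x, hx0, hxi, hx⟩ := h i
  refine Matrix.exists_mulVec_eq_zero_iff.1 ⟨x, hx0, ?_⟩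
  ext k
  by_cases hk : k = j
  · subst hk
    simp [Matrix.mulVec, hxi]
  · have := congrFun hx k
    simp only [Matrix.mulVec] at this ⊢
    rw [Matrix.updateRow_ne hk]
    exact this

end Vale.Agent.P281.H787
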